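import Vale.Agent.P273.H356.ThLaw
import Vale.Agent.P273.H908.Inv

/-!
# P273, equivariance of the flat frame
-/

set_option autoImplicit false

noncomputable section

namespace Vale.Agent.P273.H356

open Vale.Agent.P273.H908 (flat flat_spec flat_unique val)

theorem alt_iff {M : Type*} [AddCommGroup M] (xi : Fin 6 → M) :
    Vale.Agent.P273.H908.alt xi = asum xi := (asum_eq xi).symm

theorem isCl_iff_alt (xi : Fin 6 → ℝ) :
    Vale.Agent.P273.H95.IsCl xi ↔ Vale.Agent.P273.H908.alt xi = 0 := by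
  rw [isCl_iff, alt_iff]

theorem alt_sB {M : Type*} [AddCommGroup M] (k : Fin 5) {p : Fin 6 → M}
    (hp : Vale.Agent.P273.H908.alt p = 0) : Vale.Agent.P273.H908.alt (sB k p) = 0 := by
  rw [alt_iff] at hp ⊢
  rw [asum_sB, hp]

/-- `val` as an additive map of the periods, without the constant -/
def valP (a c : ℂ) : (ℂ × ℂ) →+ ℝ where
  toFun p := (a * p.1 + c * p.2).re
  map_zero' := by simp
  map_add' p q := by
    simp only [Prod.fst_add, Prod.snd_add, mul_add, Complex.add_re]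
    ring

/-- values of the moved periods -/
theorem val_sB (k : Fin 5) (p : Fin 6 → ℂ × ℂ) (v : ℂ × ℂ × ℝ) (j : Fin 6) :
    val (sB k p j) v = sB k (fun i => val (p i) v) j := by
  have h1 : valP v.1 v.2.1 (sB k p j) = sB k (fun i => valP v.1 v.2.1 (p i)) j :=
    sB_map (valP v.1 v.2.1) k p j
  have h2 : (fun i => val (p i) v) = fun i => valP v.1 v.2.1 (p i) + v.2.2 := rfl
  have h3 : val (sB k p j) v = valP v.1 v.2.1 (sB k p j) + v.2.2 := rfl
  rw [h2, sB_add k (fun i => valP v.1 v.2.1 (p i)) (fun _ => v.2.2), sB_const, h3, h1]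

theorem sB_injective {M : Type*} [AddCommGroup M] (k : Fin 5) :
    Function.Injective (sB k : (Fin 6 → M) → Fin 6 → M) :=
  (Function.LeftInverse.injective (g := sBinv k) fun xi => sBinv_sB k xi)

/-- moved periods are non-degenerate -/
theorem inj_sB (k : Fin 5) {p : Fin 6 → ℂ × ℂ}
    (hinj : ∀ a c : ℂ, ∀ r : ℝ, (∀ j, (a * (p j).1 + c * (p j).2).re + r = 0) → a = 0 ∧ c = 0) :
    ∀ a c : ℂ, ∀ r : ℝ, (∀ j, (a * (sB k p j).1 + c * (sB k p j).2).re + r = 0) →
      a = 0 ∧ c = 0 := by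
  intro a c r h
  refine hinj a c r fun j => ?_
  have h1 : sB k (fun i => val (p i) (a, c, r)) = sB k (fun _ => (0 : ℝ)) := by
    rw [sB_const]
    funext j
    rw [← val_sB]
    exact h j
  exact congrFun (sB_injective k h1) j

/-- **equivariance of the flat frame** -/
theorem flat_sB (k : Fin 5) {p : Fin 6 → ℂ × ℂ} (hp : Vale.Agent.P273.H908.alt p = 0)
    (hinj : ∀ a c : ℂ, ∀ r : ℝ, (∀ j, (a * (p j).1 + c * (p j).2).re + r = 0) → a = 0 ∧ c = 0)
    {xi : Fin 6 → ℝ} (hxi : Vale.Agent.P273.H908.alt xi = 0) :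
    flat (sB k p) (sB k xi) = flat p xi := by
  refine flat_unique (alt_sB k hp) (inj_sB k hinj) fun j => ?_
  have h1 := val_sB k p (flat p xi) j
  have h2 : (fun i => val (p i) (flat p xi)) = xi := funext fun i => flat_spec hp hinj hxi i
  rw [h2] at h1
  exact h1

/-- the same with the action of the wall -/
theorem flat_act (k : Fin 5) {p : Fin 6 → ℂ × ℂ} (hp : Vale.Agent.P273.H908.alt p = 0)
    (hinj : ∀ a c : ℂ, ∀ r : ℝ, (∀ j, (a * (p j).1 + c * (p j).2).re + r = 0) → a = 0 ∧ c = 0)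
    {xi : Fin 6 → ℝ} (hxi : Vale.Agent.P273.H95.IsCl xi) :
    flat (sB k p) (Vale.Agent.P273.H95.act k xi) = flat p xi := by
  rw [act_eq]
  exact flat_sB k hp hinj ((isCl_iff_alt xi).mp hxi)

/-- **equivariance of the coefficients**: `p` are half periods over the region, moved by the half
twists -/
theorem flat_law {p : Vale.Agent.P273.H681.C6 → Fin 6 → ℂ × ℂ} {k : Fin 5}
    {b : Vale.Agent.P273.H681.C6} (hk : p (Vale.Agent.P273.H681.swL k b) = sB k (p b))
    (hp : Vale.Agent.P273.H908.alt (p b) = 0)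
    (hinj : ∀ a c : ℂ, ∀ r : ℝ, (∀ j, (a * (p b j).1 + c * (p b j).2).re + r = 0) →
      a = 0 ∧ c = 0) {xi : Fin 6 → ℝ} (hxi : Vale.Agent.P273.H95.IsCl xi) :
    flat (p (Vale.Agent.P273.H681.swL k b)) (Vale.Agent.P273.H95.act k xi) = flat (p b) xi := by
  rw [hk]
  exact flat_act k hp hinj hxi

end Vale.Agent.P273.H356
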