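import Vale.Agent.P273.H356.Near
import Vale.Agent.P273.H681.Loc

/-!
# P273, colours over the region `XX` of six roots
-/

set_option autoImplicit false

open Finset

noncomputable section

namespace Vale.Agent.P273.H356

open Vale.Agent.P273.H681 (C6 sw swL)

variable {M : Type*} [AddCommGroup M]

theorem XX6 : XX 6 = Vale.Agent.P273.H681.XX := rfl

theorem swL_eq (k : Fin 5) (b : C6) : swL k b = b ∘ Equiv.swap k.castSucc k.succ := rfl

theorem swL_apply (k : Fin 5) (b : C6) (j : Fin 6) : swL k b j = b (sw k j) := rfl

theorem sw_sw (k : Fin 5) (j : Fin 6) : sw k (sw k j) = j := Equiv.swap_apply_self _ _ _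

theorem swL_swL (k : Fin 5) (b : C6) : swL k (swL k b) = b := by
  funext j
  rw [swL_apply, swL_apply, sw_sw]

/-- the exchange of two labels in an inversion stays in `XX` -/
theorem swL_mem (k : Fin 5) {b : C6} (hb : b ∈ Vale.Agent.P273.H681.XX)
    (h : (b k.succ).re < (b k.castSucc).re) : swL k b ∈ Vale.Agent.P273.H681.XX :=
  swap_mem_XX k hb h

/-- **equivariance of colours** -/
theorem col_sw (k : Fin 5) {b : C6} (h : (b k.succ).re < (b k.castSucc).re) (xi : Fin 6 → M)
    (j : Fin 6) : col b xi j = col (swL k b) (sB k xi) (sw k j) := col_swap k h xi j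

theorem col_sw' (k : Fin 5) {b : C6} (h : (b k.succ).re < (b k.castSucc).re) (xi : Fin 6 → M) :
    col (swL k b) (sB k xi) = fun j => col b xi (sw k j) := by
  funext j
  rw [col_sw k h xi (sw k j), sw_sw]

/-- **equivariance of a potential**: `G b t` is a quantity attached to the configuration `b` and
to the values `t` at the roots, not depending on the labels -/
theorem pot_sw {X : Type*} (G : C6 → (Fin 6 → M) → X)
    (hG : ∀ (k : Fin 5) b t, G (swL k b) (fun j => t (sw k j)) = G b t) (k : Fin 5) {b : C6}
    (h : (b k.succ).re < (b k.castSucc).re) (xi : Fin 6 → M) :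
    G (swL k b) (col (swL k b) (sB k xi)) = G b (col b xi) := by
  rw [col_sw' k h xi, hG]

/-- neighbouring transpositions generate: a quantity without labels for the neighbouring
transpositions has no labels -/
theorem colInv_sw (k : Fin 5) {b : C6} (h : (b k.succ).re < (b k.castSucc).re) (t : Fin 6 → M) :
    colInv (swL k b) (fun j => t (sw k j)) = sB k (colInv b t) := colInv_swap k h t

end Vale.Agent.P273.H356
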