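import Vale.Agent.P273.H356.ThLaw
import Vale.Agent.P273.H879.OneNode

/-!
# P273, the bounds at one node, class by class

`Asy1C Th`: bounds of the scalar forms `θ_j^ξ` near the divisor of the pair `k`.
`asy1_of : Asy1C Th → Asy1 Th`.
-/

set_option autoImplicit false

noncomputable section

namespace Vale.Agent.P273.H356

open Vale.Agent.P273.H95 Vale.Agent.P273.H879 Set Filter

/-- the class of the pair `k` -/
def prc (k : Fin 5) (j : Fin 6) : ℝ := if j = k.castSucc ∨ j = k.succ then 1 else 0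

theorem isCl_prc (k : Fin 5) : IsCl (prc k) := by
  rw [isCl_iff, asum_eq]
  fin_cases k <;> simp [prc]

/-- the coordinates of a functional -/
def cof (φ : H4 →ₗ[ℝ] ℝ) (a : Fin 4) : ℝ := φ (Pi.single a 1)

theorem eq_sum_cof (φ : H4 →ₗ[ℝ] ℝ) (x : H4) : φ x = ∑ a, cof φ a * x a := by
  conv_lhs => rw [← Finset.univ_sum_single x, map_sum]
  refine Finset.sum_congr rfl fun a _ => ?_
  have h : (Pi.single a (x a) : H4) = x a • (Pi.single a 1 : H4) := by
    funext b
    by_cases h : b = a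
    · subst h
      simp
    · simp [Pi.single_eq_of_ne h]
  rw [h, map_smul, smul_eq_mul, mul_comm]
  rfl

/-- **a functional of the vector valued form is the form of a class** -/
theorem coord_th (Th : Gauge) (φ : H4 →ₗ[ℝ] ℝ) (i : Fin 14) (S : L → Bool) (e : E) (v : L → ℂ)
    (w : E) : φ (Th.th i S e v w) = Th.θ (mrk i) (clr (cof φ)) S e v w := by
  rw [eq_sum_cof]
  have h1 := eq_sum_uH (thA Th (mrk i) S e v) (cof φ)
  have h2 := congrArg (fun f : E →L[ℝ] ℝ => f w) h1
  simp only [thA_apply, FunLike.coe_sum, Finset.sum_apply,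
    FunLike.coe_smul, Pi.smul_apply, smul_eq_mul] at h2
  rw [h2]
  refine Finset.sum_congr rfl fun a _ => ?_
  simp only [Gauge.th, ContinuousLinearMap.coe_pi', uH, thA_apply, col4_eq]

/-- the difference on the pair `k` -/
theorem clr_pair (k : Fin 5) (φ : H4 →ₗ[ℝ] ℝ) (h : φ (dk k) = 0) :
    clr (cof φ) k.castSucc = clr (cof φ) k.succ := by
  rw [eq_sum_cof, Fin.sum_univ_four] at h
  fin_cases k <;> simp [dk] at h <;> simp [clr] <;> linarith

/-- the class of the symplectic form -/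
theorem clr_om (k : Fin 5) : ∃ c d : ℝ, |c| = 1 ∧ ∀ j,
    clr (fun a => om (dk k) (Pi.single a 1)) j = c * prc k j + d := by
  fin_cases k
  · refine ⟨1, 0, by norm_num, fun j => ?_⟩
    fin_cases j <;> simp [clr, om, dk, prc]
  · refine ⟨1, 0, by norm_num, fun j => ?_⟩
    fin_cases j <;> simp [clr, om, dk, prc]
  · refine ⟨-1, 1, by norm_num, fun j => ?_⟩
    fin_cases j <;> simp [clr, om, dk, prc]
  · refine ⟨-1, 0, by norm_num, fun j => ?_⟩
    fin_cases j <;> simp [clr, om, dk, prc]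
  · refine ⟨1, 0, by norm_num, fun j => ?_⟩
    fin_cases j <;> simp [clr, om, dk, prc]

/-- the symplectic form with a fixed vector, as a functional -/
def omL (x : H4) : H4 →ₗ[ℝ] ℝ where
  toFun y := om x y
  map_add' y y' := by simp [om]; ring
  map_smul' c y := by simp [om]; ring

/-- the functional dual to the vanishing class -/
theorem coord_zero {k : Fin 5} {b : Module.Basis (Fin 4) ℝ H4} (hb : IsAd k b) (x : H4) :
    b.repr x 0 = (om (dk k) (b 0))⁻¹ * om (dk k) x := by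
  have h : b.coord 0 = (om (dk k) (b 0))⁻¹ • omL (dk k) := by
    refine b.ext fun i => ?_
    rw [Module.Basis.coord_apply, Module.Basis.repr_self, LinearMap.smul_apply, smul_eq_mul]
    obtain ⟨h1, h2, h3, h4⟩ := hb
    fin_cases i
    · simp only [Fin.zero_eta, Finsupp.single_eq_same, omL, LinearMap.coe_mk, AddHom.coe_mk]
      rw [inv_mul_cancel₀ h2]
    · simp only [Fin.mk_one, omL, LinearMap.coe_mk, AddHom.coe_mk, h1]
      rw [Finsupp.single_eq_of_ne (by decide)]
      simp [om]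
      right
      ring
    · simp only [Fin.reduceFinMk, omL, LinearMap.coe_mk, AddHom.coe_mk, h3, mul_zero]
      rw [Finsupp.single_eq_of_ne (by decide)]
    · simp only [Fin.reduceFinMk, omL, LinearMap.coe_mk, AddHom.coe_mk, h4, mul_zero]
      rw [Finsupp.single_eq_of_ne (by decide)]
  have h' := congrArg (fun f : H4 →ₗ[ℝ] ℝ => f x) h
  simpa [omL] using h'

/-- the others do not see the vanishing class -/
theorem coord_dk {k : Fin 5} {b : Module.Basis (Fin 4) ℝ H4} (hb : IsAd k b) {r : Fin 4}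
    (hr : r ≠ 1) : b.coord r (dk k) = 0 := by
  rw [← hb.1, Module.Basis.coord_apply, Module.Basis.repr_self, Finsupp.single_eq_of_ne hr]

/-- the class of the functional dual to the vanishing class -/
theorem clr_zero {k : Fin 5} {b : Module.Basis (Fin 4) ℝ H4} (hb : IsAd k b) :
    ∃ c d : ℝ, (fun j => clr (cof (b.coord 0)) j) = fun j => c * prc k j + d := by
  obtain ⟨c, d, _, h⟩ := clr_om k
  refine ⟨(om (dk k) (b 0))⁻¹ * c, (om (dk k) (b 0))⁻¹ * d, funext fun j => ?_⟩
  have h1 : cof (b.coord 0) = (om (dk k) (b 0))⁻¹ • fun a => om (dk k) (Pi.single a 1) := by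
    funext a
    rw [Pi.smul_apply, smul_eq_mul, cof, Module.Basis.coord_apply, coord_zero hb]
  rw [h1, clr_smul', Pi.smul_apply, smul_eq_mul, h j]
  ring

/-- **bounds at one node, class by class** -/
def Asy1C (Th : Gauge) : Prop := ∀ k : Fin 5, ∀ K ⊆ H828.XD k, IsCompact K → ∃ c₀ > 0, ∀ c,
  0 < c → c ≤ c₀ → ∃ R₁ > 0, ∀ R₀ ≥ R₁, ∃ (M₀ B r : ℝ), 0 < M₀ ∧ 0 < B ∧ 0 < r ∧
  ∀ (R : Region1) (m : Fin (R.n + 1)) (S : L → Bool) (p : Co1 R m) (g : ℂ) (v : L → ℂ),
    InReg k K c R₀ M₀ S p g v →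
    -- all classes
    (∀ (j : L) (ξ : Fin 6 → ℝ) (d : Dir1 R m), IsCl ξ →
      |Th.θ j ξ S (toE k c p) (R.sht (toSp c p) g v) (fderiv ℝ (toE k c) p (evec p d))| ≤
        B * ‖ξ‖ * (Real.sqrt (p.2.2.1 ()) * H879.cst p d)) ∧
    -- classes with equal numbers on the pair
    (∀ (j : L) (ξ : Fin 6 → ℝ) (d : Dir1 R m), IsCl ξ → ξ k.castSucc = ξ k.succ →
      |Th.θ j ξ S (toE k c p) (R.sht (toSp c p) g v) (fderiv ℝ (toE k c) p (evec p d))| ≤
        B * ‖ξ‖ * H879.cst p d) ∧
    -- the class of the pair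
    (∀ (j : L) (d : Dir1 R m),
      |Th.θ j (prc k) S (toE k c p) (R.sht (toSp c p) g v) (fderiv ℝ (toE k c) p (evec p d))| ≤
        B * ((Real.sqrt (p.2.2.1 ()))⁻¹ * H879.cst p d)) ∧
    -- zero near the other roots
    (∀ j : L, R.nk j = false → S j = false →
      (∃ l, ‖R.pos (toSp c p) j - R.oth (toSp c p) l‖ < r) →
      ∀ ξ, IsCl ξ → Th.θ j ξ S (toE k c p) (R.sht (toSp c p) g v) = 0) ∧
    -- same type marks close to each other have the same form
    ∀ i j : L, i ≠ j → i.2 = j.2 → Close r S (toSp c p) g v i j →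
      ∀ ξ, IsCl ξ → Th.θ i ξ S (toE k c p) (R.sht (toSp c p) g v) =
        Th.θ j ξ S (toE k c p) (R.sht (toSp c p) g v)

theorem mrk_injective : Function.Injective mrk := by
  intro i j h
  simp only [mrk] at h
  split_ifs at h with h1 h2 h2
  · simp only [Prod.mk.injEq, Fin.mk.injEq, and_true] at h
    exact Fin.ext h
  · simp at h
  · simp at h
  · simp only [Prod.mk.injEq, Fin.mk.injEq, and_true] at h
    refine Fin.ext ?_
    omega

/-- the vector valued form from the classes -/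
theorem th_ext {Th : Gauge} {i j : Fin 14} {S : L → Bool} {e : E} {v : L → ℂ}
    (h : ∀ ξ, IsCl ξ → Th.θ (mrk i) ξ S e v = Th.θ (mrk j) ξ S e v) :
    Th.th i S e v = Th.th j S e v := by
  refine ContinuousLinearMap.ext fun w => funext fun a => ?_
  have h1 : IsCl (col4 a) := by
    rw [col4_eq]
    exact isCl_clr _
  simp only [Gauge.th, ContinuousLinearMap.coe_pi', h _ h1]

theorem th_zero {Th : Gauge} {i : Fin 14} {S : L → Bool} {e : E} {v : L → ℂ}
    (h : ∀ ξ, IsCl ξ → Th.θ (mrk i) ξ S e v = 0) : Th.th i S e v = 0 := by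
  refine ContinuousLinearMap.ext fun w => funext fun a => ?_
  have h1 : IsCl (col4 a) := by
    rw [col4_eq]
    exact isCl_clr _
  simp only [Gauge.th, ContinuousLinearMap.coe_pi', h _ h1, zero_apply,
    Pi.zero_apply]

theorem asy1_of {Th : Gauge} (h : Asy1C Th) : Asy1 Th := by
  intro k b hb K hK hKc
  obtain ⟨c₀, hc₀, h⟩ := h k K hK hKc
  refine ⟨c₀, hc₀, fun c hc hcc => ?_⟩
  obtain ⟨R₁, hR₁, h⟩ := h c hc hcc
  refine ⟨R₁, hR₁, fun R₀ hR₀ => ?_⟩
  obtain ⟨M₀, B, r, hM₀, hB, hr, h⟩ := h R₀ hR₀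
  obtain ⟨c0, d0, h0⟩ := clr_zero hb
  set N : ℝ := 1 + |c0| + ∑ s : Fin 4, ‖clr (cof (b.coord s))‖ with hN
  have hNs : ∀ s : Fin 4, ‖clr (cof (b.coord s))‖ ≤ N := by
    intro s
    have h1 : ‖clr (cof (b.coord s))‖ ≤ ∑ s : Fin 4, ‖clr (cof (b.coord s))‖ :=
      Finset.single_le_sum (f := fun s => ‖clr (cof (b.coord s))‖)
        (fun _ _ => norm_nonneg _) (Finset.mem_univ s)
    have h2 := abs_nonneg c0
    linarith
  have hN0 : |c0| ≤ N := by
    have h1 : (0 : ℝ) ≤ ∑ s : Fin 4, ‖clr (cof (b.coord s))‖ :=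
      Finset.sum_nonneg fun _ _ => norm_nonneg _
    linarith
  have hN1 : 0 < N := by
    have h1 : (0 : ℝ) ≤ ∑ s : Fin 4, ‖clr (cof (b.coord s))‖ :=
      Finset.sum_nonneg fun _ _ => norm_nonneg _
    have h2 := abs_nonneg c0
    linarith
  refine ⟨M₀, B * N, r, hM₀, mul_pos hB hN1, hr, fun R m S p g v hp => ?_⟩
  obtain ⟨hC1, hC2, hC3, hC4, hC5⟩ := h R m S p g v hp
  have hcst : ∀ d : Dir1 R m, 0 ≤ H879.cst p d := by
    have hy : 0 < p.2.2.1 () := lt_of_lt_of_le hM₀ hp.y
    intro d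
    cases d <;> simp only [H879.cst] <;> positivity
  refine ⟨fun i d => ⟨?_, ?_, ?_, ?_⟩, fun i h1 h2 h3 => th_zero (hC4 (mrk i) h1 h2 h3),
    fun i j hij h1 h2 => th_ext (hC5 (mrk i) (mrk j) (fun h3 => hij (mrk_injective h3)) h1 h2)⟩
  · rw [show b.repr (Th.th i S (toE k c p) (R.sht (toSp c p) g v)
      (fderiv ℝ (toE k c) p (evec p d))) 1 = b.coord 1 (Th.th i S (toE k c p)
      (R.sht (toSp c p) g v) (fderiv ℝ (toE k c) p (evec p d))) from rfl, coord_th]
    refine (hC1 (mrk i) _ d (isCl_clr _)).trans ?_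
    rw [mul_assoc (B * N)]
    have h1 := hcst d
    gcongr
    exact hNs 1
  · rw [show b.repr (Th.th i S (toE k c p) (R.sht (toSp c p) g v)
      (fderiv ℝ (toE k c) p (evec p d))) 0 = b.coord 0 (Th.th i S (toE k c p)
      (R.sht (toSp c p) g v) (fderiv ℝ (toE k c) p (evec p d))) from rfl, coord_th]
    have h1 : clr (cof (b.coord 0)) = fun j => (c0 • prc k) j + d0 := h0
    have h2 : IsCl (c0 • prc k) := by
      have := isCl_prc k
      simp only [IsCl, Pi.smul_apply, smul_eq_mul] at this ⊢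
      rw [← mul_zero c0, ← this, Finset.mul_sum]
      exact Finset.sum_congr rfl fun _ _ => by ring
    rw [h1, theta_add_const Th (mrk i) S _ _ h2, Th.smul _ _ _ _ _ _ (isCl_prc k),
      smul_apply, smul_eq_mul, abs_mul, mul_assoc (B * N), mul_comm B N,
      mul_assoc N]
    have h3 := hcst d
    exact mul_le_mul hN0 (hC3 (mrk i) d) (abs_nonneg _) hN1.le
  · rw [show b.repr (Th.th i S (toE k c p) (R.sht (toSp c p) g v)
      (fderiv ℝ (toE k c) p (evec p d))) 2 = b.coord 2 (Th.th i S (toE k c p)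
      (R.sht (toSp c p) g v) (fderiv ℝ (toE k c) p (evec p d))) from rfl, coord_th]
    refine (hC2 (mrk i) _ d (isCl_clr _) (clr_pair k _ (coord_dk hb (by decide)))).trans ?_
    have h1 := hcst d
    gcongr
    exact hNs 2
  · rw [show b.repr (Th.th i S (toE k c p) (R.sht (toSp c p) g v)
      (fderiv ℝ (toE k c) p (evec p d))) 3 = b.coord 3 (Th.th i S (toE k c p)
      (R.sht (toSp c p) g v) (fderiv ℝ (toE k c) p (evec p d))) from rfl, coord_th]
    refine (hC2 (mrk i) _ d (isCl_clr _) (clr_pair k _ (coord_dk hb (by decide)))).trans ?_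
    have h1 := hcst d
    gcongr
    exact hNs 3

end Vale.Agent.P273.H356
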