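import Vale.Agent.P273.H356.Move6

/-!
# P273, colours and the homology of the curve of genus two

`clr z` are the colours with the coordinates `z` (four numbers), `crd` the coordinates of colours,
`sT k` the action of the half twist on coordinates of colours, `sH k` the transposed action on
vectors `u` with four entries (the potentials of the four basis colours).
-/

set_option autoImplicit false

open Finset

noncomputable section

namespace Vale.Agent.P273.H356

open Vale.Agent.P273.H681 (C6 sw swL)

variable {M : Type*} [AddCommGroup M]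

/-- the colours with coordinates `z` -/
def clr (z : Fin 4 → M) : Fin 6 → M := ![z 1, z 1 - z 0, -z 0, z 2, z 2 + z 3, z 3]

/-- the coordinates of colours -/
def crd (xi : Fin 6 → M) : Fin 4 → M := ![xi 0 - xi 1, xi 1 - xi 2, xi 4 - xi 5, xi 4 - xi 3]

/-- the constant part of colours -/
def cst (xi : Fin 6 → M) : M := xi 0 - xi 1 + xi 2

/-- the alternating sum -/
def asum (xi : Fin 6 → M) : M := ∑ j : Fin 6, (-1 : ℤ) ^ (j : ℕ) • xi j

theorem asum_eq (xi : Fin 6 → M) :
    asum xi = xi 0 - xi 1 + xi 2 - xi 3 + xi 4 - xi 5 := by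
  simp [asum, Fin.sum_univ_six, sub_eq_add_neg]

@[simp] theorem crd_clr (z : Fin 4 → M) : crd (clr z) = z := by
  funext a
  fin_cases a <;> simp [crd, clr]

theorem asum_clr (z : Fin 4 → M) : asum (clr z) = 0 := by
  rw [asum_eq]
  simp [clr]

theorem cst_clr (z : Fin 4 → M) : cst (clr z) = 0 := by
  simp [cst, clr]

/-- colours with alternating sum zero are determined by the coordinates and a constant -/
theorem eq_clr {xi : Fin 6 → M} (h : asum xi = 0) (j : Fin 6) :
    xi j = clr (crd xi) j + cst xi := by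
  rw [asum_eq] at h
  have h5 : xi 5 = xi 0 - xi 1 + xi 2 - xi 3 + xi 4 := by
    rw [sub_eq_zero] at h
    exact h.symm
  fin_cases j
  · simp [clr, crd, cst]
  · simp [clr, crd, cst]
    abel
  · simp [clr, crd, cst]
    abel
  · simp [clr, crd, cst, h5]
  · simp [clr, crd, cst, h5]
  · simp [clr, crd, cst, h5]
    abel

theorem clr_add (z z' : Fin 4 → M) (j : Fin 6) :
    clr (fun a => z a + z' a) j = clr z j + clr z' j := by
  fin_cases j <;> simp [clr] <;> abel

theorem crd_add (xi xi' : Fin 6 → M) : crd (fun j => xi j + xi' j) =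
    fun a => crd xi a + crd xi' a := by
  funext a
  fin_cases a <;> simp [crd] <;> abel

/-- naturality of the half twist -/
theorem sB_map {m : ℕ} {M' : Type*} [AddCommGroup M'] (L : M →+ M') (i : Fin m)
    (xi : Fin (m + 1) → M) (j : Fin (m + 1)) : L (sB i xi j) = sB i (fun k => L (xi k)) j := by
  simp only [sB]
  split_ifs
  · rw [map_sub, map_add]
  · rfl
  · rfl

theorem clr_map {M' : Type*} [AddCommGroup M'] (L : M →+ M') (z : Fin 4 → M) (j : Fin 6) :
    L (clr z j) = clr (fun a => L (z a)) j := by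
  fin_cases j <;> simp [clr]

theorem crd_map {M' : Type*} [AddCommGroup M'] (L : M →+ M') (xi : Fin 6 → M) (a : Fin 4) :
    L (crd xi a) = crd (fun j => L (xi j)) a := by
  fin_cases a <;> simp [crd]

theorem asum_sB (k : Fin 5) (xi : Fin 6 → M) : asum (sB k xi) = asum xi := sum_sB k xi

/-- the half twist on the coordinates of colours -/
def sT (k : Fin 5) (z : Fin 4 → M) : Fin 4 → M := crd (sB k (clr z))

/-- the constant created by the half twist -/
def cT (k : Fin 5) (z : Fin 4 → M) : M := cst (sB k (clr z))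

/-- **the half twist in coordinates** -/
theorem sB_clr (k : Fin 5) (z : Fin 4 → M) (j : Fin 6) :
    sB k (clr z) j = clr (sT k z) j + cT k z :=
  eq_clr (by rw [asum_sB, asum_clr]) j

/-- the action on vectors: `u + omega (d_k, u) d_k` -/
def sH (k : Fin 5) (u : Fin 4 → M) : Fin 4 → M :=
  match k with
  | 0 => ![u 0 + u 1, u 1, u 2, u 3]
  | 1 => ![u 0, u 1 - u 0, u 2, u 3]
  | 2 => ![u 0 + (u 1 + u 3), u 1, u 2 + (u 1 + u 3), u 3]
  | 3 => ![u 0, u 1, u 2, u 3 - u 2]
  | 4 => ![u 0, u 1, u 2 + u 3, u 3]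

theorem sT_zero (z : Fin 4 → M) : sT 0 z = ![z 0, z 0 + z 1, z 2, z 3] := by
  funext a
  fin_cases a <;> simp [sT, crd, sB, clr] <;> abel

theorem sT_one (z : Fin 4 → M) : sT 1 z = ![z 0 - z 1, z 1, z 2, z 3] := by
  funext a
  fin_cases a <;> simp [sT, crd, sB, clr] <;> abel

theorem sT_two (z : Fin 4 → M) :
    sT 2 z = ![z 0, z 0 + z 2 + z 1, z 2, z 0 + z 2 + z 3] := by
  funext a
  fin_cases a <;> simp [sT, crd, sB, clr] <;> abel

theorem sT_three (z : Fin 4 → M) : sT 3 z = ![z 0, z 1, z 2 - z 3, z 3] := by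
  funext a
  fin_cases a <;> simp [sT, crd, sB, clr]

theorem sT_four (z : Fin 4 → M) : sT 4 z = ![z 0, z 1, z 2, z 2 + z 3] := by
  funext a
  fin_cases a <;> simp [sT, crd, sB, clr] <;> abel

/-- the pairing of coordinates of colours and vectors: `sT` is the transpose of `sH` -/
theorem sum_sT {W : Type*} [AddCommGroup W] [Module ℝ W] (k : Fin 5) (z : Fin 4 → ℝ)
    (u : Fin 4 → W) : ∑ a, sT k z a • u a = ∑ a, z a • sH k u a := by
  fin_cases k
  · simp only [Fin.zero_eta, sT_zero, sH, Fin.sum_univ_four]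
    simp
    module
  · simp only [Fin.mk_one, sT_one, sH, Fin.sum_univ_four]
    simp
    module
  · simp only [Fin.reduceFinMk, sT_two, sH, Fin.sum_univ_four]
    simp
    module
  · simp only [Fin.reduceFinMk, sT_three, sH, Fin.sum_univ_four]
    simp
    module
  · simp only [Fin.reduceFinMk, sT_four, sH, Fin.sum_univ_four]
    simp
    module

/-- the vector of the four basis potentials -/
def uH {W : Type*} (A : (Fin 4 → ℝ) → W) (a : Fin 4) : W := A (Pi.single a 1)

theorem eq_sum_uH {W : Type*} [AddCommGroup W] [Module ℝ W] (A : (Fin 4 → ℝ) →ₗ[ℝ] W)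
    (z : Fin 4 → ℝ) : A z = ∑ a, z a • uH A a := by
  conv_lhs => rw [← Finset.univ_sum_single z, map_sum]
  refine Finset.sum_congr rfl fun a _ => ?_
  rw [uH, ← map_smul]
  congr 1
  funext b
  by_cases h : b = a
  · subst h
    simp
  · simp [Pi.single_eq_of_ne h]

/-- **equivariance of vectors**: if `A z = A' (sT k z)` then `u = s_k u'` -/
theorem uH_eq {W : Type*} [AddCommGroup W] [Module ℝ W] {k : Fin 5}
    {A A' : (Fin 4 → ℝ) →ₗ[ℝ] W} (h : ∀ z, A z = A' (sT k z)) :
    uH A = sH k (uH A') := by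
  funext a
  have h1 : uH A a = A' (sT k (Pi.single a 1)) := h _
  rw [h1, eq_sum_uH A', sum_sT]
  rw [Finset.sum_eq_single a]
  · rw [Pi.single_eq_same, one_smul]
  · intro b _ hb
    rw [Pi.single_eq_of_ne hb, zero_smul]
  · intro h'
    exact absurd (Finset.mem_univ a) h'

end Vale.Agent.P273.H356
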