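import Vale.Agent.P273.H356.Sys

/-!
# P273, half periods in the frame of `XX` from the half periods of the slit frame
-/

set_option autoImplicit false

open Finset Filter Topology

noncomputable section

namespace Vale.Agent.P273.H356

open Vale.Agent.P273.H681 (C6 sw swL)

/-- shift of the roots to the right, the root `j` by `t j` -/
def sh (b : C6) (t : ℝ) : C6 := fun j => b j + ((t * (j : ℕ) : ℝ) : ℂ)

theorem sh_zero (b : C6) : sh b 0 = b := by
  funext j
  simp [sh]

theorem continuous_sh (b : C6) : Continuous (sh b) := by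
  refine continuous_pi fun j => ?_
  exact continuous_const.add (Complex.continuous_ofReal.comp (continuous_id.mul continuous_const))

theorem sh_inj (b : C6) : ∀ᶠ t in 𝓝[>] (0 : ℝ), Function.Injective fun i => (sh b t i).re := by
  have h1 : ∀ i j : Fin 6, i ≠ j → ∀ᶠ t in 𝓝[>] (0 : ℝ), (sh b t i).re ≠ (sh b t j).re := by
    intro i j hij
    have hne : ((i : ℕ) : ℝ) - ((j : ℕ) : ℝ) ≠ 0 := by
      rw [sub_ne_zero]
      exact fun h => hij (Fin.ext (Nat.cast_injective h))
    have h2 : ∀ᶠ t in 𝓝[>] (0 : ℝ), t ≠ ((b j).re - (b i).re) / (((i : ℕ) : ℝ) - ((j : ℕ) : ℝ)) := by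
      by_cases h0 : ((b j).re - (b i).re) / (((i : ℕ) : ℝ) - ((j : ℕ) : ℝ)) = 0
      · rw [h0]
        filter_upwards [self_mem_nhdsWithin] with t ht
        exact (Set.mem_Ioi.mp ht).ne'
      · refine nhdsWithin_le_nhds ?_
        exact isOpen_ne.mem_nhds (Ne.symm h0)
    filter_upwards [h2] with t ht h3
    apply ht
    rw [eq_div_iff hne]
    simp only [sh, Complex.add_re, Complex.ofReal_re] at h3
    linarith
  have h4 : ∀ᶠ t in 𝓝[>] (0 : ℝ), ∀ i j : Fin 6, i ≠ j → (sh b t i).re ≠ (sh b t j).re := by
    rw [Filter.eventually_all]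
    intro i
    rw [Filter.eventually_all]
    intro j
    by_cases hij : i = j
    · exact Filter.Eventually.of_forall fun t h => absurd hij h
    · filter_upwards [h1 i j hij] with t ht _
      exact ht
  filter_upwards [h4] with t ht i j hij
  by_contra hne
  exact ht i j hne hij

/-- a continuous function on `XX` vanishing off the walls vanishes -/
theorem eq_zero_of_offwall {F : Type*} [TopologicalSpace F] [T2Space F] {f g : C6 → F}
    (hf : ContinuousOn f (XX 6)) (hg : ContinuousOn g (XX 6))
    (h : ∀ b ∈ XX 6, (Function.Injective fun i => (b i).re) → f b = g b) {b : C6}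
    (hb : b ∈ XX 6) : f b = g b := by
  have h0 : Tendsto (sh b) (𝓝[>] (0 : ℝ)) (𝓝 b) := by
    have := (continuous_sh b).tendsto 0
    rw [sh_zero] at this
    exact this.mono_left nhdsWithin_le_nhds
  have h1 : ContinuousAt f b := hf.continuousAt (isOpen_XX.mem_nhds hb)
  have h2 : ContinuousAt g b := hg.continuousAt (isOpen_XX.mem_nhds hb)
  refine tendsto_nhds_unique (h1.tendsto.comp h0) ((h2.tendsto.comp h0).congr' ?_)
  filter_upwards [h0.eventually (isOpen_XX.mem_nhds hb), sh_inj b] with t ht hi
  exact (h _ ht hi).symm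

/-- naturality of the colours, with a constant -/
theorem rr_col (a : Fin 2 → ℂ) (c : ℝ) (b : C6) (p : Fin 6 → Fin 2 → ℂ) (j : Fin 6) :
    rr a (col b p j) + c = col b (fun i => rr a (p i) + c) j := by
  have h1 : rr a (col b p j) = col b (fun i => rr a (p i)) j := col_map (rrP a) b p j
  have h2 := congrFun (col_add b (fun i => rr a (p i)) (fun _ => c)) j
  rw [col_const] at h2
  rw [h2, h1]

theorem col_zero (b : C6) (j : Fin 6) : col b (fun _ : Fin 6 => (0 : ℝ)) j = 0 := by
  rw [col_const]

/-- **the half periods of the frame of `XX`** -/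
theorem hp_of_pi (pi : C6 → Fin 6 → Fin 2 → ℂ)
    (smooth : ContDiffOn ℝ (↑(⊤ : ℕ∞)) (fun b => colInv b (pi b)) (XX 6))
    (hasum : ∀ b ∈ XX 6, (Function.Injective fun i => (b i).re) → alt b (pi b) = 0)
    (inj : ∀ b ∈ XX 6, ∀ (a : Fin 2 → ℂ) (c : ℝ), (∀ j, rr a (pi b j) + c = 0) → a = 0 ∧ c = 0)
    (label : ∀ k : Fin 5, ∀ b ∈ XX 6, (b k.succ).re < (b k.castSucc).re →
      ∀ j, pi (swL k b) j = pi b (sw k j)) : HP (fun b => colInv b (pi b)) where
  smooth := smooth
  asum := by
    intro b hb
    refine eq_zero_of_offwall (f := fun b => asum (colInv b (pi b))) (g := fun _ => 0) ?_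
      continuousOn_const ?_ hb
    · have h1 : ∀ j, ContinuousOn (fun b => colInv b (pi b) j) (XX 6) := fun j =>
        continuousOn_pi.mp smooth.continuousOn j
      simp only [asum_eq]
      exact ((((h1 0).sub (h1 1)).add (h1 2)).sub (h1 3)).add (h1 4) |>.sub (h1 5)
    · intro b hb hi
      have h2 := alt_col hi (colInv b (pi b))
      rw [col_colInv, hasum b hb hi] at h2
      exact h2.symm
  inj := by
    intro b hb a c h
    refine inj b hb a c fun j => ?_
    have h1 : pi b j = col b (colInv b (pi b)) j := by rw [col_colInv]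
    rw [h1, rr_col]
    have h2 : (fun i => rr a (colInv b (pi b) i) + c) = fun _ => 0 := funext h
    rw [h2, col_zero]
  equi := by
    intro k b hb hk
    have h1 : pi (swL k b) = fun j => pi b (sw k j) := funext fun j => label k b hb hk j
    show colInv (swL k b) (pi (swL k b)) = _
    rw [h1, colInv_sw k hk]

/-- the values of the gauge at the roots in the slit frame -/
theorem gauge_slit {pi : C6 → Fin 6 → Fin 2 → ℂ} (h : HP (fun b => colInv b (pi b))) {b : C6}
    (hb : b ∈ XX 6) (z : Fin 4 → ℝ) (j : Fin 6) :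
    rr (aX (fun b => colInv b (pi b)) b z) (pi b j) + cX (fun b => colInv b (pi b)) b z =
      col b (clr z) j := by
  have h1 : pi b j = col b (colInv b (pi b)) j := by rw [col_colInv]
  rw [h1, rr_col]
  have h2 : (fun i => rr (aX (fun b => colInv b (pi b)) b z) (colInv b (pi b) i) +
      cX (fun b => colInv b (pi b)) b z) = clr z := funext fun i => gauge_eq h hb z i
  rw [h2]

end Vale.Agent.P273.H356
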