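import Vale.Agent.P273.H580.Fam
import Vale.Agent.P273.H598.Node2
import Vale.Agent.P273.H604.ParHol

/-!
# P273, row ASY1: the potential in the neck of one node

`U5 ξ i ρ (q, d, X, Y, L)` = real part of `a · (kap + L c0 + P0 X - P0 Y)` plus the constant: a
smooth function of the merged configuration, the half difference, the two neck coordinates and the
logarithm of the first one.
-/

namespace Vale.Agent.P273.H356.Link

open scoped ContDiff Topology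
open Set Filter Metric
open Vale.Agent.P273.H598
open Vale.Agent.P273.H857 (C6 lo)
open Vale.Agent.P273.H580

noncomputable section

/-- configuration, half difference, neck coordinates, logarithm of the first one -/
abbrev T5 : Type := C6 × ℂ × ℂ × ℂ × ℂ

variable (i : Fin 5) (ρ : ℝ)

/-- the constant of the neck -/
def kapV (p : ℂ × C6) : ℂ × ℂ := (kap i 0 ρ p, kap i 1 ρ p)

/-- the half period of the vanishing cycle -/
def c0V (p : ℂ × C6) : ℂ × ℂ :=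
  (c0 (fun z => HH i 0 (p.2, z)) (5 * ρ) p.1, c0 (fun z => HH i 1 (p.2, z)) (5 * ρ) p.1)

/-- the holomorphic part -/
def P0V (p : ℂ × ℂ × C6) : ℂ × ℂ :=
  (P0 (fun z => HH i 0 (p.2.2, z)) (5 * ρ) p.1 p.2.1,
    P0 (fun z => HH i 1 (p.2.2, z)) (5 * ρ) p.1 p.2.1)

/-- the primitive in the neck -/
def WN (t : T5) : ℂ × ℂ :=
  kapV i ρ (t.2.1, t.1) + (t.2.2.2.2 • c0V i ρ (t.2.1 ^ 2, t.1) +
    (P0V i ρ (t.2.2.1, t.2.1 ^ 2, t.1) - P0V i ρ (t.2.2.2.1, t.2.1 ^ 2, t.1)))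

/-- the potential in the neck -/
def U5 (ξ : Fin 6 → ℝ) (t : T5) : ℝ :=
  AX ξ (bb i (t.2.1, t.1)) (WN i ρ t) + cX ξ (bb i (t.2.1, t.1))

variable {i ρ} {V : Set C6}

theorem smooth_bb {n : ℕ∞ω} : ContDiff ℝ n (fun p : ℂ × C6 => bb i p) := by
  have h : ContDiffOn ℝ n (fun p : ℂ × C6 => bb i p) univ :=
    H604.contDiffOn_real_of_differentiableOn isOpen_univ
      (differentiable_bb (i := i)).differentiableOn
  exact contDiffOn_univ.1 h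

theorem smooth_kapV (h : NB i V ρ) (hP : PotHyp) {d : ℂ} (hd : ‖d‖ < ρ / 2) {q : C6}
    (hq : q ∈ V) : ContDiffAt ℝ ∞ (kapV i ρ) (d, q) := by
  have ho : IsOpen (ball (0 : ℂ) (ρ / 2) ×ˢ V) := isOpen_ball.prod h.op
  have hm : ball (0 : ℂ) (ρ / 2) ×ˢ V ∈ 𝓝 (d, q) :=
    ho.mem_nhds ⟨mem_ball_zero_iff.2 hd, hq⟩
  have h0 := H604.contDiffOn_real_of_differentiableOn (n := ∞) ho (h.diff_kap hP (k := 0) (by norm_num))
  have h1 := H604.contDiffOn_real_of_differentiableOn (n := ∞) ho (h.diff_kap hP (k := 1) (by norm_num))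
  exact (h0.contDiffAt hm).prodMk (h1.contDiffAt hm)

theorem smooth_c0V (h : NB i V ρ) {ε : ℂ} (hε : ‖ε‖ < (5 * ρ) ^ 2) {q : C6}
    (hq : q ∈ V) : ContDiffAt ℝ ∞ (c0V i ρ) (ε, q) := by
  have hρ := h.pos
  have ho : IsOpen (ball (0 : ℂ) ((5 * ρ) ^ 2) ×ˢ V) := isOpen_ball.prod h.op
  have hm : ball (0 : ℂ) ((5 * ρ) ^ 2) ×ˢ V ∈ 𝓝 (ε, q) :=
    ho.mem_nhds ⟨mem_ball_zero_iff.2 hε, hq⟩
  have hk : ∀ k, DifferentiableOn ℂ (fun p : ℂ × C6 => c0 (fun z => HH i k (p.2, z)) (5 * ρ) p.1)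
      (ball 0 ((5 * ρ) ^ 2) ×ˢ V) := fun k =>
    differentiableOn_c0 h.op (by linarith) (by linarith : 5 * ρ < 6 * ρ)
      ((differentiableOn_HH k).mono h.gd)
  exact ((H604.contDiffOn_real_of_differentiableOn (n := ∞) ho (hk 0)).contDiffAt hm).prodMk
    ((H604.contDiffOn_real_of_differentiableOn (n := ∞) ho (hk 1)).contDiffAt hm)

theorem smooth_P0V (h : NB i V ρ) {X ε : ℂ} (hX : ‖X‖ < 5 * ρ) (hε : ‖ε‖ < (5 * ρ) ^ 2) {q : C6}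
    (hq : q ∈ V) : ContDiffAt ℝ ∞ (P0V i ρ) (X, ε, q) := by
  have hρ := h.pos
  have ho : IsOpen (ball (0 : ℂ) (5 * ρ) ×ˢ ball (0 : ℂ) ((5 * ρ) ^ 2) ×ˢ V) :=
    isOpen_ball.prod (isOpen_ball.prod h.op)
  have hm : ball (0 : ℂ) (5 * ρ) ×ˢ ball (0 : ℂ) ((5 * ρ) ^ 2) ×ˢ V ∈ 𝓝 (X, ε, q) :=
    ho.mem_nhds ⟨mem_ball_zero_iff.2 hX, mem_ball_zero_iff.2 hε, hq⟩
  have hk : ∀ k, DifferentiableOn ℂ (fun p : ℂ × ℂ × C6 =>
      P0 (fun z => HH i k (p.2.2, z)) (5 * ρ) p.1 p.2.1)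
      (ball 0 (5 * ρ) ×ˢ ball 0 ((5 * ρ) ^ 2) ×ˢ V) := fun k =>
    differentiableOn_P0 h.op (by linarith : 5 * ρ < 6 * ρ) ((differentiableOn_HH k).mono h.gd)
  exact ((H604.contDiffOn_real_of_differentiableOn (n := ∞) ho (hk 0)).contDiffAt hm).prodMk
    ((H604.contDiffOn_real_of_differentiableOn (n := ∞) ho (hk 1)).contDiffAt hm)

theorem sq_lt (h : NB i V ρ) {d : ℂ} (hd : ‖d‖ < ρ / 2) : ‖d ^ 2‖ < (5 * ρ) ^ 2 := by
  have hρ := h.pos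
  rw [norm_pow]
  exact pow_lt_pow_left₀ (by linarith) (norm_nonneg _) two_ne_zero

/-- the domain of the potential -/
structure D5 (i : Fin 5) (V : Set C6) (ρ : ℝ) (t : T5) : Prop where
  q : t.1 ∈ V
  d : ‖t.2.1‖ < ρ / 2
  X : ‖t.2.2.1‖ < 5 * ρ
  Y : ‖t.2.2.2.1‖ < 5 * ρ

theorem smooth_WN (h : NB i V ρ) (hP : PotHyp) {t : T5} (ht : D5 i V ρ t) :
    ContDiffAt ℝ ∞ (WN i ρ) t := by
  have hε := sq_lt h ht.d
  have c1 : ContDiffAt ℝ ∞ (fun t : T5 => (t.2.1, t.1)) t := by fun_prop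
  have c2 : ContDiffAt ℝ ∞ (fun t : T5 => (t.2.1 ^ 2, t.1)) t := by fun_prop
  have c3 : ContDiffAt ℝ ∞ (fun t : T5 => (t.2.2.1, t.2.1 ^ 2, t.1)) t := by fun_prop
  have c4 : ContDiffAt ℝ ∞ (fun t : T5 => (t.2.2.2.1, t.2.1 ^ 2, t.1)) t := by fun_prop
  have c5 : ContDiffAt ℝ ∞ (fun t : T5 => t.2.2.2.2) t := by fun_prop
  have h1 : ContDiffAt ℝ ∞ (fun t : T5 => kapV i ρ (t.2.1, t.1)) t :=
    ContDiffAt.comp (g := kapV i ρ) (f := fun t : T5 => (t.2.1, t.1)) t (smooth_kapV h hP ht.d ht.q) c1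
  have h2 : ContDiffAt ℝ ∞ (fun t : T5 => c0V i ρ (t.2.1 ^ 2, t.1)) t :=
    ContDiffAt.comp (g := c0V i ρ) (f := fun t : T5 => (t.2.1 ^ 2, t.1)) t (smooth_c0V h hε ht.q) c2
  have h3 : ContDiffAt ℝ ∞ (fun t : T5 => P0V i ρ (t.2.2.1, t.2.1 ^ 2, t.1)) t :=
    ContDiffAt.comp (g := P0V i ρ) (f := fun t : T5 => (t.2.2.1, t.2.1 ^ 2, t.1)) t
      (smooth_P0V h ht.X hε ht.q) c3
  have h4 : ContDiffAt ℝ ∞ (fun t : T5 => P0V i ρ (t.2.2.2.1, t.2.1 ^ 2, t.1)) t :=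
    ContDiffAt.comp (g := P0V i ρ) (f := fun t : T5 => (t.2.2.2.1, t.2.1 ^ 2, t.1)) t
      (smooth_P0V h ht.Y hε ht.q) c4
  exact h1.add ((c5.smul h2).add (h3.sub h4))

/-- **the potential in the neck is smooth** -/
theorem smooth_U5 (h : NB i V ρ) (hP : PotHyp) (H : Stms) {ξ : Fin 6 → ℝ} (hξ : H908.alt ξ = 0)
    {t : T5} (ht : D5 i V ρ t) (hb : bb i (t.2.1, t.1) ∈ XO) : ContDiffAt ℝ ∞ (U5 i ρ ξ) t := by
  have c1 : ContDiffAt ℝ ∞ (fun t : T5 => bb i (t.2.1, t.1)) t :=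
    (smooth_bb (i := i)).contDiffAt.comp t (by fun_prop : ContDiffAt ℝ ∞ (fun t : T5 => (t.2.1, t.1)) t)
  have hF := flatX H hξ
  have h1 : ContDiffAt ℝ ∞ (fun t : T5 => AX ξ (bb i (t.2.1, t.1))) t :=
    ContDiffAt.comp (g := AX ξ) t (hF.smA _ hb) c1
  have h2 : ContDiffAt ℝ ∞ (fun t : T5 => cX ξ (bb i (t.2.1, t.1))) t :=
    ContDiffAt.comp (g := cX ξ) t (hF.smc _ hb) c1
  exact (h1.clm_apply (smooth_WN h hP ht)).add h2

end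

end Vale.Agent.P273.H356.Link
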