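import Vale.Agent.P273.H356.Link0

/-!
# P273, row ASY1: the flat form in the neck is the differential of the potential (generic points)
-/

namespace Vale.Agent.P273.H356.Link

open scoped ContDiff Topology Real
open Set Filter Metric
open Vale.Agent.P273.H598
open Vale.Agent.P273.H857 (C6 lo piX P)
open Vale.Agent.P273.H580
open Vale.Agent.P273.H214 (Bs ff IsBr)
open Vale.Agent.P273.H908 (Sl)

noncomputable section

/-! ### logarithms -/

/-- a continuous logarithm of one is locally constant -/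
theorem ev_const {E : Type*} [TopologicalSpace E] {W : E → ℂ} {p : E} (hW : ContinuousAt W p)
    (h : ∀ᶠ x in 𝓝 p, Complex.exp (W x) = 1) :
    ∃ n : ℤ, ∀ᶠ x in 𝓝 p, W x = n * (2 * π * Complex.I) := by
  obtain ⟨n, hn⟩ := Complex.exp_eq_one_iff.1 h.self_of_nhds
  refine ⟨n, ?_⟩
  have h1 : ∀ᶠ x in 𝓝 p, dist (W x) (W p) < 2 * π := by
    have := hW.tendsto.eventually (ball_mem_nhds (W p) (by positivity : (0 : ℝ) < 2 * π))
    exact this
  filter_upwards [h, h1] with x hx h2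
  obtain ⟨m, hm⟩ := Complex.exp_eq_one_iff.1 hx
  rw [dist_eq_norm, hm, hn] at h2
  have e : (m : ℂ) * (2 * π * Complex.I) - n * (2 * π * Complex.I) =
      ((m - n : ℤ) : ℂ) * (((2 * π : ℝ) : ℂ) * Complex.I) := by
    push_cast
    ring
  rw [e, norm_mul, norm_mul, Complex.norm_I, mul_one, Complex.norm_real, Real.norm_eq_abs,
    abs_of_pos (by positivity : (0 : ℝ) < 2 * π), Complex.norm_intCast] at h2
  have h3 : |((m - n : ℤ) : ℝ)| < 1 := by
    by_contra hc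
    rw [not_lt] at hc
    have := mul_le_mul_of_nonneg_right hc (by positivity : (0 : ℝ) ≤ 2 * π)
    linarith
  have h4 : |m - n| < 1 := by exact_mod_cast h3
  have h5 : m - n = 0 := Int.abs_lt_one_iff.1 h4
  have h6 : m = n := by linarith
  rw [hm, h6]

/-- two continuous logarithms of the same function that agree at a point agree near it -/
theorem ev_eq_of_exp {E : Type*} [TopologicalSpace E] {f g : E → ℂ} {p : E}
    (hf : ContinuousAt f p) (hg : ContinuousAt g p) (h0 : f p = g p)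
    (h : ∀ᶠ x in 𝓝 p, Complex.exp (f x) = Complex.exp (g x)) : ∀ᶠ x in 𝓝 p, f x = g x := by
  have h1 : ∀ᶠ x in 𝓝 p, Complex.exp (f x - g x) = 1 := by
    filter_upwards [h] with x hx
    rw [Complex.exp_sub, hx, div_self (Complex.exp_ne_zero _)]
  obtain ⟨n, hn⟩ := ev_const (W := fun x => f x - g x) (hf.sub hg) h1
  have h2 := hn.self_of_nhds
  rw [h0, sub_self] at h2
  filter_upwards [hn] with x hx
  rw [← h2] at hx
  exact sub_eq_zero.1 hx

/-! ### the space of neck coordinates -/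

/-- configuration, half difference, first neck coordinate -/
abbrev T3 : Type := C6 × ℂ × ℂ

/-- the second neck coordinate -/
def YT (t : T3) : ℂ := t.2.1 ^ 2 / t.2.2

/-- the distance from the centre -/
def zT (t : T3) : ℂ := (t.2.2 + YT t) / 2

variable (i : Fin 5)

/-- the configuration and the mark -/
def PsT (t : T3) : C6 × ℂ := (bb i (t.2.1, t.1), t.1 i.castSucc + zT t)

/-- the square root -/
def sT (t : T3) : ℂ := (t.2.2 - YT t) / 2 * GG i t.1 (zT t)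

/-- all the coordinates -/
def mT (X0 L0 : ℂ) (t : T3) : T5 := (t.1, t.2.1, t.2.2, YT t, Complex.log (t.2.2 / X0) + L0)

/-- the domain -/
structure D3 (V : Set C6) (ρ : ℝ) (t : T3) : Prop where
  q : t.1 ∈ V
  d0 : t.2.1 ≠ 0
  d : ‖t.2.1‖ < ρ / 2
  X0 : t.2.2 ≠ 0
  X : ‖t.2.2‖ < ρ
  Y : ‖YT t‖ < ρ
  b : bb i (t.2.1, t.1) ∈ XO
  ne : t.2.2 ≠ YT t

variable {i} {V : Set C6} {ρ : ℝ}

theorem D3.Y0 {t : T3} (h : D3 i V ρ t) : YT t ≠ 0 := div_ne_zero (pow_ne_zero 2 h.d0) h.X0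

theorem D3.mul {t : T3} (h : D3 i V ρ t) : t.2.2 * YT t = t.2.1 ^ 2 := by
  unfold YT
  have := h.X0
  field_simp

theorem D3.z {t : T3} (h : D3 i V ρ t) : ‖zT t‖ < ρ := by
  unfold zT
  rw [norm_div, Complex.norm_ofNat, div_lt_iff₀ (by norm_num)]
  have h1 := norm_add_le t.2.2 (YT t)
  linarith [h.X, h.Y]

theorem D3.sq {t : T3} (h : D3 i V ρ t) : zT t ∈ Sq ρ :=
  ⟨lt_of_le_of_lt (Complex.abs_re_le_norm _) h.z, lt_of_le_of_lt (Complex.abs_im_le_norm _) h.z⟩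

theorem continuousAt_YT {t : T3} (h : t.2.2 ≠ 0) : ContinuousAt YT t := by
  unfold YT
  exact ContinuousAt.div (by fun_prop) (by fun_prop) h

theorem smooth_YT {t : T3} (h : t.2.2 ≠ 0) : ContDiffAt ℝ ∞ YT t := by
  unfold YT
  simp only [div_eq_mul_inv]
  have h1 : ContDiffAt ℝ ∞ (fun t : T3 => t.2.1 ^ 2) t := by fun_prop
  have h2 : ContDiffAt ℝ ∞ (fun t : T3 => t.2.2) t := by fun_prop
  exact h1.mul (h2.inv h)

theorem smooth_zT {t : T3} (h : t.2.2 ≠ 0) : ContDiffAt ℝ ∞ zT t := by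
  have h1 : ContDiffAt ℝ ∞ (fun t : T3 => t.2.2) t := by fun_prop
  have h2 := (h1.add (smooth_YT h)).mul (contDiffAt_const (c := (2 : ℂ)⁻¹))
  simp only [← div_eq_mul_inv] at h2
  exact h2

theorem smooth_PsT {t : T3} (h : t.2.2 ≠ 0) : ContDiffAt ℝ ∞ (PsT i) t := by
  have h1 : ContDiffAt ℝ ∞ (fun t : T3 => bb i (t.2.1, t.1)) t :=
    (smooth_bb (i := i)).contDiffAt.comp t
      (by fun_prop : ContDiffAt ℝ ∞ (fun t : T3 => (t.2.1, t.1)) t)
  have h2 : ContDiffAt ℝ ∞ (fun t : T3 => t.1 i.castSucc) t := by fun_prop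
  exact h1.prodMk (h2.add (smooth_zT h))

theorem smooth_mT {X0 L0 : ℂ} {t : T3} (h : t.2.2 ≠ 0) (hs : t.2.2 / X0 ∈ Complex.slitPlane) :
    ContDiffAt ℝ ∞ (mT X0 L0) t := by
  have h1 : ContDiffAt ℂ ∞ Complex.log (t.2.2 / X0) := Complex.contDiffAt_log hs
  have h2 : ContDiffAt ℝ ∞ Complex.log (t.2.2 / X0) := h1.restrict_scalars ℝ
  have h3 : ContDiffAt ℝ ∞ (fun t : T3 => t.2.2 / X0) t := by
    simp only [div_eq_mul_inv]
    fun_prop
  have h4 : ContDiffAt ℝ ∞ (fun t : T3 => Complex.log (t.2.2 / X0)) t :=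
    ContDiffAt.comp (g := Complex.log) t h2 h3
  have h5 : ContDiffAt ℝ ∞ (fun t : T3 => t.1) t := by fun_prop
  have h6 : ContDiffAt ℝ ∞ (fun t : T3 => t.2.1) t := by fun_prop
  have h7 : ContDiffAt ℝ ∞ (fun t : T3 => t.2.2) t := by fun_prop
  exact h5.prodMk (h6.prodMk (h7.prodMk ((smooth_YT h).prodMk (h4.add contDiffAt_const))))

theorem D3.ev (hV : IsOpen V) {t : T3} (h : D3 i V ρ t) : ∀ᶠ t' in 𝓝 t, D3 i V ρ t' := by
  have hb : ContinuousAt (fun t : T3 => bb i (t.2.1, t.1)) t :=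
    (ContinuousAt.comp (g := fun p : ℂ × C6 => bb i p) (f := fun t : T3 => (t.2.1, t.1))
      (continuous_bb (i := i)).continuousAt (by fun_prop))
  have hY := continuousAt_YT h.X0
  have hX : ContinuousAt (fun t : T3 => t.2.2) t := by fun_prop
  have e1 : ∀ᶠ t' : T3 in 𝓝 t, t'.1 ∈ V :=
    continuous_fst.continuousAt.eventually_mem (hV.mem_nhds h.q)
  have e2 : ∀ᶠ t' : T3 in 𝓝 t, t'.2.1 ≠ 0 :=
    (by fun_prop : ContinuousAt (fun t : T3 => t.2.1) t).eventually_ne h.d0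
  have e3 : ∀ᶠ t' : T3 in 𝓝 t, ‖t'.2.1‖ < ρ / 2 :=
    (by fun_prop : ContinuousAt (fun t : T3 => ‖t.2.1‖) t).eventually_lt continuousAt_const h.d
  have e4 : ∀ᶠ t' : T3 in 𝓝 t, t'.2.2 ≠ 0 := hX.eventually_ne h.X0
  have e5 : ∀ᶠ t' : T3 in 𝓝 t, ‖t'.2.2‖ < ρ := hX.norm.eventually_lt continuousAt_const h.X
  have e6 : ∀ᶠ t' : T3 in 𝓝 t, ‖YT t'‖ < ρ := hY.norm.eventually_lt continuousAt_const h.Y
  have e7 : ∀ᶠ t' : T3 in 𝓝 t, bb i (t'.2.1, t'.1) ∈ XO :=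
    hb.eventually_mem (isOpen_XO.mem_nhds h.b)
  have e8 : ∀ᶠ t' : T3 in 𝓝 t, t'.2.2 - YT t' ≠ 0 :=
    (hX.sub hY).eventually_ne (sub_ne_zero.2 h.ne)
  filter_upwards [e1, e2, e3, e4, e5, e6, e7, e8] with t' a1 a2 a3 a4 a5 a6 a7 a8
  exact ⟨a1, a2, a3, a4, a5, a6, a7, sub_ne_zero.1 a8⟩

theorem isOpen_DomP : IsOpen {p : ℂ × ℂ | p.2 ∈ Dom p.1} := by
  have h1 : IsOpen {p : ℂ × ℂ | p.2 + p.1 ∈ Sl} := H908.isOpen_Sl.preimage (by fun_prop)
  have h2 : IsOpen {p : ℂ × ℂ | p.2 - p.1 ∈ Sl} := H908.isOpen_Sl.preimage (by fun_prop)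
  exact h1.inter h2

theorem ev_Dom {t : T3} (h : t.2.2 ≠ 0) (hz : zT t ∈ Dom t.2.1) :
    ∀ᶠ t' : T3 in 𝓝 t, zT t' ∈ Dom t'.2.1 := by
  have hc : ContinuousAt (fun t : T3 => ((t.2.1, zT t) : ℂ × ℂ)) t :=
    (by fun_prop : ContinuousAt (fun t : T3 => t.2.1) t).prodMk (smooth_zT h).continuousAt
  exact hc.eventually_mem (isOpen_DomP.mem_nhds hz)

theorem Om_sub_Dm {S : Finset (Fin 6)} : Om S ⊆ Dm S := by
  intro p hp
  obtain ⟨⟨h1, h2⟩, h3⟩ := hp
  have h4 : ∀ l ∈ S, (p.1 l).re = p.2.re → p.2.im < (p.1 l).im := fun l hl e =>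
    (h2 l (h3 l) e).1 hl
  have h5 : ∀ l, l ∉ S → (p.1 l).re = p.2.re → (p.1 l).im < p.2.im := fun l hl e =>
    (h2 l (h3 l) e).2 hl
  refine ⟨fun l hl m hm e hx => ?_, h4, h5⟩
  rcases hx.lt_or_eq with hx | hx
  · exact h1 l hl m hm e hx
  · have a1 := h4 l hl hx.symm
    have a2 := h5 m hm (by rw [← e, hx])
    linarith

/-- `-d` is not below the origin -/
theorem neg_mem_Sl {q : C6} {d : ℂ} (hb : bb i (d, q) ∈ XO) : -d ∈ Sl := by
  by_cases h : d.re = 0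
  · left
    have h1 := hb i.castSucc i.succ (lt_succ' i) (by
      rw [bb_zero, bb_one, Complex.sub_re, Complex.add_re, h]; ring)
    rw [bb_zero, bb_one, Complex.sub_im, Complex.add_im] at h1
    rw [Complex.neg_im]
    linarith
  · right
    rw [Complex.neg_re]
    exact neg_ne_zero.2 h

/-! ### the periods of the pair -/

theorem pX_zero (h : NB i V ρ) (hP : PotHyp) {q : C6} (hq : q ∈ V) {d : ℂ}
    (hd : ‖d‖ < ρ / 2) (hdS : -d ∈ Sl) :
    pX (bb i (d, q)) i.castSucc = kapV i ρ (d, q) + lg (-d) • c0V i ρ (d ^ 2, q) :=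
  Prod.ext (h.piX_zero hP (by norm_num) hq hd hdS) (h.piX_zero hP (by norm_num) hq hd hdS)

theorem pX_sub (h : NB i V ρ) (hP : PotHyp) {q : C6} (hq : q ∈ V) {d : ℂ}
    (hd : ‖d‖ < ρ / 2) (hdS : -d ∈ Sl) :
    pX (bb i (d, q)) i.castSucc - pX (bb i (d, q)) i.succ =
      (π * Complex.I) • c0V i ρ (d ^ 2, q) := by
  have key : ∀ k ≤ 1, piX k i.castSucc (bb i (d, q)) - piX k i.succ (bb i (d, q)) =
      (π * Complex.I) * c0 (fun z => HH i k (q, z)) (5 * ρ) (d ^ 2) := by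
    intro k hk
    rw [h.piX_zero hP hk hq hd hdS, h.piX_one hP hk hq hd hdS]
    ring
  exact Prod.ext (key 0 (by norm_num)) (key 1 (by norm_num))

/-- the period of the vanishing cycle -/
theorem AX_c0V (h : NB i V ρ) (hP : PotHyp) (H : Stms) {ξ : Fin 6 → ℝ} (hξ : H908.alt ξ = 0)
    {q : C6} (hq : q ∈ V) {d : ℂ} (hd : ‖d‖ < ρ / 2) (hb : bb i (d, q) ∈ XO) :
    AX ξ (bb i (d, q)) ((π * Complex.I) • c0V i ρ (d ^ 2, q)) = ξ i.castSucc - ξ i.succ := by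
  rw [← pX_sub h hP hq hd (neg_mem_Sl hb), map_sub]
  have h1 := val_fl H hξ hb i.castSucc
  have h2 := val_fl H hξ hb i.succ
  linarith

theorem AX_c0V_int (h : NB i V ρ) (hP : PotHyp) (H : Stms) {ξ : Fin 6 → ℝ}
    (hξ : H908.alt ξ = 0) {q : C6} (hq : q ∈ V) {d : ℂ} (hd : ‖d‖ < ρ / 2)
    (hb : bb i (d, q) ∈ XO) (n : ℤ) :
    AX ξ (bb i (d, q)) ((n * (2 * π * Complex.I)) • c0V i ρ (d ^ 2, q)) =
      2 * n * (ξ i.castSucc - ξ i.succ) := by
  have e : ((n : ℂ) * (2 * π * Complex.I)) • c0V i ρ (d ^ 2, q) =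
      (2 * n : ℝ) • ((π * Complex.I) • c0V i ρ (d ^ 2, q)) := by
    refine Prod.ext ?_ ?_
    · simp only [Prod.smul_fst, smul_eq_mul, Complex.real_smul]
      push_cast
      ring
    · simp only [Prod.smul_snd, smul_eq_mul, Complex.real_smul]
      push_cast
      ring
  rw [e, map_smul, AX_c0V h hP H hξ hq hd hb, smul_eq_mul]

/-! ### generic points -/

theorem sg_cont {d z : ℂ} (hz : z ∈ Dom d) :
    ContinuousAt (fun p : ℂ × ℂ => sg p.1 p.2) (d, z) := by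
  have h1 : ContinuousAt (fun p : ℂ × ℂ => H908.rt (p.2 + p.1)) (d, z) :=
    ContinuousAt.comp (f := fun p : ℂ × ℂ => p.2 + p.1) (g := H908.rt)
      (H908.continuousAt_rt hz.1) (by fun_prop)
  have h2 : ContinuousAt (fun p : ℂ × ℂ => H908.rt (p.2 - p.1)) (d, z) :=
    ContinuousAt.comp (f := fun p : ℂ × ℂ => p.2 - p.1) (g := H908.rt)
      (H908.continuousAt_rt hz.2) (by fun_prop)
  exact h1.mul h2

theorem sq_eq_one {z : ℂ} (h : z ^ 2 = 1) : ∃ ε : ℝ, (ε = 1 ∨ ε = -1) ∧ z = ε := by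
  rcases sq_one h with h | h
  · exact ⟨1, Or.inl rfl, by rw [h]; norm_num⟩
  · exact ⟨-1, Or.inr rfl, by rw [h]; norm_num⟩

/-- the root of the pair is locally plus or minus half the difference of the coordinates -/
theorem sg_ev (hV : IsOpen V) {t : T3} (h : D3 i V ρ t) (hz : zT t ∈ Dom t.2.1) :
    ∃ ε : ℝ, (ε = 1 ∨ ε = -1) ∧
      ∀ᶠ t' : T3 in 𝓝 t, sg t'.2.1 (zT t') = ε * ((t'.2.2 - YT t') / 2) := by
  have hne : (t.2.2 - YT t) / 2 ≠ 0 := div_ne_zero (sub_ne_zero.2 h.ne) two_ne_zero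
  have hsq : ∀ t' : T3, D3 i V ρ t' → sg t'.2.1 (zT t') ^ 2 = ((t'.2.2 - YT t') / 2) ^ 2 := by
    intro t' h'
    rw [sg_sq]
    unfold zT
    linear_combination h'.mul
  have h1 : (sg t.2.1 (zT t) / ((t.2.2 - YT t) / 2)) ^ 2 = 1 := by
    rw [div_pow, hsq t h, div_self (pow_ne_zero 2 hne)]
  obtain ⟨ε, hε, h2⟩ := sq_eq_one h1
  refine ⟨ε, hε, ?_⟩
  have hεε : (ε : ℂ) ^ 2 = 1 := by
    rcases hε with rfl | rfl <;> norm_num
  have c1 : ContinuousAt (fun t : T3 => sg t.2.1 (zT t)) t := by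
    have hc : ContinuousAt (fun t : T3 => ((t.2.1, zT t) : ℂ × ℂ)) t :=
      (by fun_prop : ContinuousAt (fun t : T3 => t.2.1) t).prodMk (smooth_zT h.X0).continuousAt
    exact ContinuousAt.comp (f := fun t : T3 => ((t.2.1, zT t) : ℂ × ℂ))
      (g := fun p : ℂ × ℂ => sg p.1 p.2) (sg_cont hz) hc
  have c2 : ContinuousAt (fun t : T3 => (ε : ℂ) * ((t.2.2 - YT t) / 2)) t := by
    have a1 : ContinuousAt (fun t : T3 => t.2.2) t := by fun_prop
    exact continuousAt_const.mul ((a1.sub (continuousAt_YT h.X0)).div_const 2)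
  refine Vale.Agent.P273.H214.eventuallyEq_of_sq c1 c2 ?_ ?_ ?_
  · rw [← h2, div_mul_cancel₀ _ hne]
  · exact sg_ne_zero hz
  · filter_upwards [h.ev hV] with t' h'
    rw [hsq t' h', mul_pow, hεε, one_mul]

/-- the primitive in the neck, generic points -/
theorem neckV (h : NB i V ρ) (hP : PotHyp) {q : C6} (hq : q ∈ V) {d : ℂ}
    (hd : ‖d‖ < ρ / 2) {z : ℂ} (hz : z ∈ Dom d ∩ Sq ρ) {X Y : ℂ} (hX : XS d z = X)
    (hY : d ^ 2 / X = Y) :
    ((P 0 (lo i.castSucc) (bb i (d, q)) (q i.castSucc + z),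
      P 1 (lo i.castSucc) (bb i (d, q)) (q i.castSucc + z)) : ℂ × ℂ) =
      kapV i ρ (d, q) + (lg X • c0V i ρ (d ^ 2, q) +
        (P0V i ρ (X, d ^ 2, q) - P0V i ρ (Y, d ^ 2, q))) := by
  have key : ∀ k ≤ 1, P k (lo i.castSucc) (bb i (d, q)) (q i.castSucc + z) =
      kap i k ρ (d, q) + (lg X • c0 (fun z => HH i k (q, z)) (5 * ρ) (d ^ 2) +
        (P0 (fun z => HH i k (q, z)) (5 * ρ) X (d ^ 2) -
          P0 (fun z => HH i k (q, z)) (5 * ρ) Y (d ^ 2))) := by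
    intro k hk
    rw [h.neck hP hk hq hd hz]
    unfold NN
    rw [hX, hY]
  exact Prod.ext (key 0 (by norm_num)) (key 1 (by norm_num))

/-- the potential of the chart without cuts from below -/
abbrev GT (H : Stms) (i : Fin 5) (ξ : Fin 6 → ℝ) : Bs × ℂ → ℝ :=
  Gf (PQ H) (AX ξ) (cX ξ) (lo i.castSucc)

theorem exp_mT {X0 L0 : ℂ} (hL : Complex.exp L0 = X0) {t : T3} (h : t.2.2 ≠ 0) :
    Complex.exp (Complex.log (t.2.2 / X0) + L0) = t.2.2 := by
  have h0 : X0 ≠ 0 := by rw [← hL]; exact Complex.exp_ne_zero _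
  rw [Complex.exp_add, hL, Complex.exp_log (div_ne_zero h h0), div_mul_cancel₀ _ h0]

/-- **generic points: the potentials agree up to sign and constant** -/
theorem gen_pot (h : NB i V ρ) (hP : PotHyp) (H : Stms) {ξ : Fin 6 → ℝ} (hξ : H908.alt ξ = 0)
    {X0 L0 : ℂ} (hL : Complex.exp L0 = X0) {t : T3} (ht : D3 i V ρ t)
    (hs : t.2.2 / X0 ∈ Complex.slitPlane) (hz : zT t ∈ Dom t.2.1) {ε : ℝ}
    (hε : ε = 1 ∨ ε = -1)
    (hsg : ∀ᶠ t' : T3 in 𝓝 t, sg t'.2.1 (zT t') = ε * ((t'.2.2 - YT t') / 2)) :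
    ∃ C : ℝ, ∀ᶠ t' : T3 in 𝓝 t, U5 i ρ ξ (mT X0 L0 t') = ε * GT H i ξ (PsT i t') + C := by
  have cX' : ContinuousAt (fun t : T3 => t.2.2) t := by fun_prop
  have cL : ContinuousAt (fun t : T3 => Complex.log (t.2.2 / X0) + L0) t := by
    have h1 : ContinuousAt (fun t : T3 => t.2.2 / X0) t := cX'.div_const X0
    have h2 : ContinuousAt (fun t : T3 => Complex.log (t.2.2 / X0)) t :=
      ContinuousAt.comp (g := Complex.log) (f := fun t : T3 => t.2.2 / X0)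
        (Complex.differentiableAt_log hs).continuousAt h1
    exact h2.add continuousAt_const
  rcases hε with rfl | rfl
  · -- the logarithm of `X`
    have hXS : ∀ t' : T3, sg t'.2.1 (zT t') = ((1 : ℝ) : ℂ) * ((t'.2.2 - YT t') / 2) →
        XS t'.2.1 (zT t') = t'.2.2 := by
      intro t' h'
      unfold XS
      rw [h']
      unfold zT
      push_cast
      ring
    have hX : t.2.2 ∈ Sl := by
      rw [← hXS t hsg.self_of_nhds]
      exact XS_mem hz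
    have cW : ContinuousAt (fun t : T3 => Complex.log (t.2.2 / X0) + L0 - lg t.2.2) t :=
      cL.sub (ContinuousAt.comp (g := lg) (f := fun t : T3 => t.2.2) (continuousAt_lg hX) cX')
    have hW : ∀ᶠ t' : T3 in 𝓝 t,
        Complex.exp (Complex.log (t'.2.2 / X0) + L0 - lg t'.2.2) = 1 := by
      filter_upwards [ht.ev h.op] with t' h'
      rw [Complex.exp_sub, exp_mT hL h'.X0, exp_lg h'.X0, div_self h'.X0]
    obtain ⟨n, hn⟩ := ev_const cW hW
    refine ⟨2 * n * (ξ i.castSucc - ξ i.succ), ?_⟩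
    filter_upwards [hn, ht.ev h.op, hsg, ev_Dom ht.X0 hz] with t' h1 h2 h3 h4
    have e1 := neckV h hP h2.q h2.d ⟨h4, h2.sq⟩ (hXS t' h3) (Y := YT t') rfl
    have e2 := AX_c0V_int h hP H hξ h2.q h2.d h2.b n
    have e3 : WN i ρ (mT X0 L0 t') = (P 0 (lo i.castSucc) (bb i (t'.2.1, t'.1))
          (t'.1 i.castSucc + zT t'), P 1 (lo i.castSucc) (bb i (t'.2.1, t'.1))
          (t'.1 i.castSucc + zT t')) +
        ((n : ℂ) * (2 * π * Complex.I)) • c0V i ρ (t'.2.1 ^ 2, t'.1) := by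
      rw [e1, ← h1, sub_smul]
      unfold WN mT
      simp only
      abel
    have e4 : GT H i ξ (PsT i t') = AX ξ (bb i (t'.2.1, t'.1)) (P 0 (lo i.castSucc)
        (bb i (t'.2.1, t'.1)) (t'.1 i.castSucc + zT t'), P 1 (lo i.castSucc)
        (bb i (t'.2.1, t'.1)) (t'.1 i.castSucc + zT t')) + cX ξ (bb i (t'.2.1, t'.1)) := rfl
    have e5 : U5 i ρ ξ (mT X0 L0 t') = AX ξ (bb i (t'.2.1, t'.1)) (WN i ρ (mT X0 L0 t')) +
        cX ξ (bb i (t'.2.1, t'.1)) := rfl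
    rw [e5, e3, map_add, e2, e4]
    ring
  · -- the logarithm of `Y`
    have hXS : ∀ t' : T3, sg t'.2.1 (zT t') = ((-1 : ℝ) : ℂ) * ((t'.2.2 - YT t') / 2) →
        XS t'.2.1 (zT t') = YT t' := by
      intro t' h'
      unfold XS
      rw [h']
      unfold zT
      push_cast
      ring
    have hY : YT t ∈ Sl := by
      rw [← hXS t hsg.self_of_nhds]
      exact XS_mem hz
    have hd : -t.2.1 ∈ Sl := neg_mem_Sl ht.b
    have cY : ContinuousAt (fun t : T3 => lg (YT t)) t :=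
      ContinuousAt.comp (g := lg) (f := YT) (continuousAt_lg hY) (continuousAt_YT ht.X0)
    have cd : ContinuousAt (fun t : T3 => lg (-t.2.1)) t :=
      ContinuousAt.comp (g := lg) (f := fun t : T3 => -t.2.1) (continuousAt_lg hd) (by fun_prop)
    have cW : ContinuousAt (fun t : T3 => Complex.log (t.2.2 / X0) + L0 + lg (YT t) -
        (lg (-t.2.1) + lg (-t.2.1))) t := (cL.add cY).sub (cd.add cd)
    have hW : ∀ᶠ t' : T3 in 𝓝 t, Complex.exp (Complex.log (t'.2.2 / X0) + L0 + lg (YT t') -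
        (lg (-t'.2.1) + lg (-t'.2.1))) = 1 := by
      filter_upwards [ht.ev h.op] with t' h'
      have hd0 : -t'.2.1 ≠ 0 := neg_ne_zero.2 h'.d0
      rw [Complex.exp_sub, Complex.exp_add, exp_mT hL h'.X0, exp_lg h'.Y0, Complex.exp_add,
        exp_lg hd0, h'.mul, div_eq_one_iff_eq (mul_ne_zero hd0 hd0)]
      ring
    obtain ⟨n, hn⟩ := ev_const cW hW
    refine ⟨2 * ξ i.castSucc + 2 * n * (ξ i.castSucc - ξ i.succ), ?_⟩
    filter_upwards [hn, ht.ev h.op, hsg, ev_Dom ht.X0 hz] with t' h1 h2 h3 h4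
    have hYX : t'.2.1 ^ 2 / YT t' = t'.2.2 := by
      rw [div_eq_iff h2.Y0, h2.mul]
    have e1 := neckV h hP h2.q h2.d ⟨h4, h2.sq⟩ (hXS t' h3) hYX
    have e2 := AX_c0V_int h hP H hξ h2.q h2.d h2.b n
    have e6 := val_fl H hξ h2.b i.castSucc
    rw [pX_zero h hP h2.q h2.d (neg_mem_Sl h2.b), map_add] at e6
    have e3 : WN i ρ (mT X0 L0 t') + (P 0 (lo i.castSucc) (bb i (t'.2.1, t'.1))
          (t'.1 i.castSucc + zT t'), P 1 (lo i.castSucc) (bb i (t'.2.1, t'.1))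
          (t'.1 i.castSucc + zT t')) = (kapV i ρ (t'.2.1, t'.1) + kapV i ρ (t'.2.1, t'.1)) +
        (((n : ℂ) * (2 * π * Complex.I)) • c0V i ρ (t'.2.1 ^ 2, t'.1) +
          (lg (-t'.2.1) • c0V i ρ (t'.2.1 ^ 2, t'.1) +
            lg (-t'.2.1) • c0V i ρ (t'.2.1 ^ 2, t'.1))) := by
      rw [e1, ← h1, sub_smul, add_smul, add_smul (lg (-t'.2.1))]
      unfold WN mT
      simp only
      abel
    have e4 : GT H i ξ (PsT i t') = AX ξ (bb i (t'.2.1, t'.1)) (P 0 (lo i.castSucc)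
        (bb i (t'.2.1, t'.1)) (t'.1 i.castSucc + zT t'), P 1 (lo i.castSucc)
        (bb i (t'.2.1, t'.1)) (t'.1 i.castSucc + zT t')) + cX ξ (bb i (t'.2.1, t'.1)) := rfl
    have e5 : U5 i ρ ξ (mT X0 L0 t') = AX ξ (bb i (t'.2.1, t'.1)) (WN i ρ (mT X0 L0 t')) +
        cX ξ (bb i (t'.2.1, t'.1)) := rfl
    have e7 := congrArg (AX ξ (bb i (t'.2.1, t'.1))) e3
    rw [map_add, map_add, map_add, map_add, map_add, e2] at e7
    rw [e5, e4]
    linarith

/-- **generic points: the form is the differential of the potential** -/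
theorem gen_link (h : NB i V ρ) (hP : PotHyp) (H : Stms) {ξ : Fin 6 → ℝ} (hξ : H908.alt ξ = 0)
    {X0 L0 : ℂ} (hL : Complex.exp L0 = X0) {t : T3} (ht : D3 i V ρ t)
    (hs : t.2.2 / X0 ∈ Complex.slitPlane) (hz : zT t ∈ Dom t.2.1) :
    (etaX H ξ (PsT i t).1 (PsT i t).2 (sT i t)).comp (fderiv ℝ (PsT i) t) =
      fderiv ℝ (fun t => U5 i ρ ξ (mT X0 L0 t)) t := by
  obtain ⟨ε, hε, hsg⟩ := sg_ev h.op ht hz
  obtain ⟨C, hC⟩ := gen_pot h hP H hξ hL ht hs hz hε hsg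
  have hρ := h.pos
  have hOm : PsT i t ∈ Om (lo i.castSucc) := h.mem_om ht.q (by linarith [ht.d]) ⟨hz, ht.sq⟩
  have hD : PsT i t ∈ Dm (lo i.castSucc) := Om_sub_Dm hOm
  have hF := flatX H hξ
  have hG : DifferentiableAt ℝ (GT H i ξ) (PsT i t) := hF.diffG hD ht.b
  have hPs : DifferentiableAt ℝ (PsT i) t := (smooth_PsT ht.X0).differentiableAt (by simp)
  have h1 : HasFDerivAt (fun t => ε * GT H i ξ (PsT i t) + C)
      (ε • (fderiv ℝ (GT H i ξ) (PsT i t)).comp (fderiv ℝ (PsT i) t)) t :=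
    ((hG.hasFDerivAt.comp t hPs.hasFDerivAt).const_mul ε).add_const C
  have h2 : fderiv ℝ (fun t => U5 i ρ ξ (mT X0 L0 t)) t =
      ε • (fderiv ℝ (GT H i ξ) (PsT i t)).comp (fderiv ℝ (PsT i) t) :=
    (h1.congr_of_eventuallyEq hC).fderiv
  have h3 : etaX H ξ (PsT i t).1 (PsT i t).2 (sT i t) =
      (sT i t / (PQ H).s (lo i.castSucc) ((PsT i t).1, (PsT i t).2)).re •
        fderiv ℝ (GT H i ξ) ((PsT i t).1, (PsT i t).2) := hF.eta_eq ht.b hD _
  have h4 : (PQ H).s (lo i.castSucc) ((PsT i t).1, (PsT i t).2) =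
      sg t.2.1 (zT t) * GG i t.1 (zT t) := sq_bb (i := i) t.2.1 t.1 (zT t)
  have hGG : GG i t.1 (zT t) ≠ 0 :=
    GG_ne_zero (p := (t.1, zT t)) (h.mem_gd ht.q (by linarith [ht.z]))
  have hne : (t.2.2 - YT t) / 2 ≠ 0 := div_ne_zero (sub_ne_zero.2 ht.ne) two_ne_zero
  have h5 : sT i t / (PQ H).s (lo i.castSucc) ((PsT i t).1, (PsT i t).2) = ε := by
    rw [h4, hsg.self_of_nhds]
    unfold sT
    have hε0 : (ε : ℂ) ≠ 0 := by rcases hε with rfl | rfl <;> norm_num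
    have hεε : (ε : ℂ) * ε = 1 := by rcases hε with rfl | rfl <;> norm_num
    rw [div_eq_iff (mul_ne_zero (mul_ne_zero hε0 hne) hGG)]
    linear_combination (-((t.2.2 - YT t) / 2 * GG i t.1 (zT t))) * hεε
  rw [h3, h2, h5, Complex.ofReal_re, ContinuousLinearMap.smul_comp]

end

end Vale.Agent.P273.H356.Link
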