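import Vale.Agent.P273.H356.Link1

/-!
# P273, row ASY1: the flat form of one mark in the neck and on the charts is the differential of
the potential

`neck_link`: along any maps `q, d, X, Y, L` with `X Y = d ^ 2`, `exp L = X`, the form at the
configuration `bb i (d, q)` and the mark `q i.castSucc + (X + Y) / 2`, composed with the derivative
of the configuration and the mark, is `ε` times the derivative of `U5 i ρ ξ (q, d, X, Y, L)`, where
`y = ε (X - Y) / 2 * GG`.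
`chart_link`: the same in the chart `Dm S`.
-/

namespace Vale.Agent.P273.H356.Link

open scoped ContDiff Topology Real
open Set Filter Metric
open Vale.Agent.P273.H598
open Vale.Agent.P273.H857 (C6 lo piX P)
open Vale.Agent.P273.H580
open Vale.Agent.P273.H214 (Bs ff IsBr Ybr isBr_Ybr)
open Vale.Agent.P273.H908 (Sl)

noncomputable section

variable {i : Fin 5} {V : Set C6} {ρ : ℝ}

theorem ff_PsT' (t : T3) : ff (PsT i t) = (zT t ^ 2 - t.2.1 ^ 2) * GG i t.1 (zT t) ^ 2 := by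
  have h1 : H857.sq (lo i.castSucc) (bb i (t.2.1, t.1)) (t.1 i.castSucc + zT t) *
      H857.sq (lo i.castSucc) (bb i (t.2.1, t.1)) (t.1 i.castSucc + zT t) = ff (PsT i t) := by
    rw [H857.sq_mul_self]
    rfl
  rw [← h1, sq_bb, ← sg_sq]
  ring

theorem ff_PsT {t : T3} (h : D3 i V ρ t) : ff (PsT i t) = sT i t ^ 2 := by
  rw [ff_PsT']
  have h1 : zT t ^ 2 - t.2.1 ^ 2 = ((t.2.2 - YT t) / 2) ^ 2 := by
    unfold zT
    linear_combination h.mul
  rw [h1]
  unfold sT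
  ring

theorem continuousAt_GG {p : C6 × ℂ} (hp : p ∈ Gd i) :
    ContinuousAt (fun p : C6 × ℂ => GG i p.1 p.2) p := by
  have h1 : ContinuousAt (HH i 0) p :=
    ((differentiableOn_HH (i := i) 0).differentiableAt ((isOpen_Gd i).mem_nhds hp)).continuousAt
  have e : ∀ p : C6 × ℂ, (HH i 0 p)⁻¹ = GG i p.1 p.2 := by
    intro p
    unfold HH
    rw [pow_zero, one_div, inv_inv]
  have h2 : HH i 0 p ≠ 0 := by
    intro h0
    have := e p
    rw [h0, inv_zero] at this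
    exact GG_ne_zero hp this.symm
  have h3 := h1.inv₀ h2
  simp only [Pi.inv_def, e] at h3
  exact h3

theorem D3.gd (h : NB i V ρ) {t : T3} (ht : D3 i V ρ t) : (t.1, zT t) ∈ Gd i :=
  h.mem_gd ht.q (by linarith [ht.z, h.pos])

theorem D3.s0 (h : NB i V ρ) {t : T3} (ht : D3 i V ρ t) : sT i t ≠ 0 := by
  have h1 : GG i t.1 (zT t) ≠ 0 := GG_ne_zero (p := (t.1, zT t)) (ht.gd h)
  have h2 : (t.2.2 - YT t) / 2 ≠ 0 := div_ne_zero (sub_ne_zero.2 ht.ne) two_ne_zero
  exact mul_ne_zero h2 h1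

theorem continuousAt_sT (h : NB i V ρ) {t : T3} (ht : D3 i V ρ t) : ContinuousAt (sT i) t := by
  have h1 : ContinuousAt (fun t : T3 => t.2.2) t := by fun_prop
  have h2 : ContinuousAt (fun t : T3 => ((t.1, zT t) : C6 × ℂ)) t :=
    continuous_fst.continuousAt.prodMk (smooth_zT ht.X0).continuousAt
  have h3 : ContinuousAt (fun t : T3 => GG i t.1 (zT t)) t :=
    ContinuousAt.comp (g := fun p : C6 × ℂ => GG i p.1 p.2)
      (f := fun t : T3 => ((t.1, zT t) : C6 × ℂ)) (continuousAt_GG (ht.gd h)) h2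
  exact ((h1.sub (continuousAt_YT ht.X0)).div_const 2).mul h3

/-- the form along the square root is continuous -/
theorem cont_eta (h : NB i V ρ) (H : Stms) {ξ : Fin 6 → ℝ} (hξ : H908.alt ξ = 0) {t : T3}
    (ht : D3 i V ρ t) :
    ContinuousAt (fun t : T3 => etaX H ξ (PsT i t).1 (PsT i t).2 (sT i t)) t := by
  have hff : ff (PsT i t) ≠ 0 := by
    rw [ff_PsT ht]
    exact pow_ne_zero 2 (ht.s0 h)
  have hbr : IsBr (Ybr (PsT i t) (sT i t)) (PsT i t) := isBr_Ybr hff (ff_PsT ht).symm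
  have h1 : ContinuousAt (fun q : Bs × ℂ => eta (PQ H) (AX ξ) (cX ξ) q.1 q.2
      (Ybr (PsT i t) (sT i t) q)) (PsT i t) :=
    ((flatX H hξ).smooth ht.b hbr).continuousAt
  have cP : ContinuousAt (PsT i) t := (smooth_PsT ht.X0).continuousAt
  have h2 : ContinuousAt (fun t' : T3 => eta (PQ H) (AX ξ) (cX ξ) (PsT i t').1 (PsT i t').2
      (Ybr (PsT i t) (sT i t) (PsT i t'))) t :=
    ContinuousAt.comp (g := fun q : Bs × ℂ => eta (PQ H) (AX ξ) (cX ξ) q.1 q.2
      (Ybr (PsT i t) (sT i t) q)) (f := PsT i) h1 cP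
  have h3 : ∀ᶠ t' : T3 in 𝓝 t, sT i t' = Ybr (PsT i t) (sT i t) (PsT i t') := by
    refine Vale.Agent.P273.H214.eventuallyEq_of_sq (continuousAt_sT h ht)
      (ContinuousAt.comp (g := Ybr (PsT i t) (sT i t)) (f := PsT i) hbr.cont cP) ?_ (ht.s0 h) ?_
    · rw [H214.Ybr_self hff]
    · filter_upwards [ht.ev h.op, cP.eventually hbr.sq] with t' a1 a2
      rw [a2, ff_PsT a1]
  refine h2.congr ?_
  filter_upwards [h3] with t' h4
  rw [← h4]
  rfl

/-! ### the curve of generic points -/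

/-- the first neck coordinate moves -/
def gT (t : T3) (s : ℝ) : T3 := (t.1, t.2.1, t.2.2 + s * ((t.2.2 - YT t) / (2 * t.2.2))⁻¹)

theorem gT_zero (t : T3) : gT t 0 = t := by
  unfold gT
  simp

theorem gT_tendsto (t : T3) : Tendsto (gT t) (𝓝[≠] 0) (𝓝 t) := by
  have hc : Continuous (gT t) := by
    unfold gT
    fun_prop
  have := (hc.tendsto 0).mono_left (nhdsWithin_le_nhds (s := {0}ᶜ))
  rwa [gT_zero] at this

theorem gT_deriv {t : T3} (h : D3 i V ρ t) : HasDerivAt (fun s : ℝ => zT (gT t s)) 1 0 := by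
  have hne : (t.2.2 - YT t) / (2 * t.2.2) ≠ 0 :=
    div_ne_zero (sub_ne_zero.2 h.ne) (mul_ne_zero two_ne_zero h.X0)
  set w := ((t.2.2 - YT t) / (2 * t.2.2))⁻¹ with hw
  have h1 : HasDerivAt (fun s : ℝ => t.2.2 + s * w) w 0 := by
    have := ((Complex.ofRealCLM.hasDerivAt (x := (0 : ℝ))).mul_const w).const_add t.2.2
    simpa using this
  have h0 : t.2.2 + ((0 : ℝ) : ℂ) * w ≠ 0 := by simpa using h.X0
  have h2 : HasDerivAt (fun s : ℝ => (t.2.2 + s * w)⁻¹)
      (-w / (t.2.2 + ((0 : ℝ) : ℂ) * w) ^ 2) 0 := h1.inv h0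
  have h3 : HasDerivAt (fun s : ℝ => (t.2.2 + s * w + t.2.1 ^ 2 * (t.2.2 + s * w)⁻¹) / 2)
      ((w + t.2.1 ^ 2 * (-w / (t.2.2 + ((0 : ℝ) : ℂ) * w) ^ 2)) / 2) 0 :=
    (h1.add (h2.const_mul (t.2.1 ^ 2))).div_const 2
  have e : (w + t.2.1 ^ 2 * (-w / (t.2.2 + ((0 : ℝ) : ℂ) * w) ^ 2)) / 2 = 1 := by
    have hm := h.mul
    have hX := h.X0
    have hw2 : w * (t.2.2 - YT t) = 2 * t.2.2 := by
      rw [hw, inv_div, div_mul_cancel₀ _ (sub_ne_zero.2 h.ne)]
    rw [Complex.ofReal_zero, zero_mul, add_zero, ← hm]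
    field_simp
    linear_combination hw2
  rw [e] at h3
  exact h3

theorem gT_dom {t : T3} (h : D3 i V ρ t) :
    ∀ᶠ s : ℝ in 𝓝[≠] 0, zT (gT t s) ∈ Dom (gT t s).2.1 := by
  have h1 : HasDerivAt (fun s : ℝ => (zT (gT t s)).re) 1 0 := by
    have h0 : HasDerivAt (fun s : ℝ => Complex.reCLM (zT (gT t s))) (Complex.reCLM 1) 0 :=
      Complex.reCLM.hasFDerivAt.comp_hasDerivAt (0 : ℝ) (gT_deriv h)
    have e : (Complex.reCLM 1 : ℝ) = 1 := by simp
    rw [e] at h0
    exact h0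
  filter_upwards [h1.eventually_ne (c := -t.2.1.re) one_ne_zero,
    h1.eventually_ne (c := t.2.1.re) one_ne_zero] with s a1 a2
  refine ⟨Or.inr ?_, Or.inr ?_⟩
  · rw [Complex.add_re]
    intro h0
    exact a1 (by linarith [show (gT t s).2.1.re = t.2.1.re from rfl])
  · rw [Complex.sub_re]
    intro h0
    exact a2 (by linarith [show (gT t s).2.1.re = t.2.1.re from rfl])

/-- **all points of the neck: the form is the differential of the potential** -/
theorem all_link (h : NB i V ρ) (hP : PotHyp) (H : Stms) {ξ : Fin 6 → ℝ} (hξ : H908.alt ξ = 0)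
    {t : T3} (ht : D3 i V ρ t) {L0 : ℂ} (hL : Complex.exp L0 = t.2.2) :
    (etaX H ξ (PsT i t).1 (PsT i t).2 (sT i t)).comp (fderiv ℝ (PsT i) t) =
      fderiv ℝ (fun t' => U5 i ρ ξ (mT t.2.2 L0 t')) t := by
  have hρ := h.pos
  have hs0 : t.2.2 / t.2.2 ∈ Complex.slitPlane := by
    rw [div_self ht.X0]
    exact Complex.one_mem_slitPlane
  have hs : ∀ᶠ t' : T3 in 𝓝 t, t'.2.2 / t.2.2 ∈ Complex.slitPlane := by
    have hc : ContinuousAt (fun t' : T3 => t'.2.2 / t.2.2) t := by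
      simp only [div_eq_mul_inv]
      fun_prop
    exact hc.eventually_mem (Complex.isOpen_slitPlane.mem_nhds hs0)
  have hev : ∀ᶠ s : ℝ in 𝓝[≠] 0,
      (etaX H ξ (PsT i (gT t s)).1 (PsT i (gT t s)).2 (sT i (gT t s))).comp
        (fderiv ℝ (PsT i) (gT t s)) =
      fderiv ℝ (fun t' => U5 i ρ ξ (mT t.2.2 L0 t')) (gT t s) := by
    filter_upwards [gT_dom ht, (gT_tendsto t).eventually (ht.ev h.op),
      (gT_tendsto t).eventually hs] with s a1 a2 a3
    exact gen_link h hP H hξ hL a2 a3 a1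
  have c1 : ContinuousAt (fun t : T3 => (etaX H ξ (PsT i t).1 (PsT i t).2 (sT i t)).comp
      (fderiv ℝ (PsT i) t)) t :=
    (cont_eta h H hξ ht).clm_comp
      (((smooth_PsT ht.X0).fderiv_right (m := ∞) (by simp)).continuousAt)
  have hm : ContDiffAt ℝ ∞ (mT t.2.2 L0) t := smooth_mT ht.X0 hs0
  have hD5 : D5 i V ρ (mT t.2.2 L0 t) :=
    ⟨ht.q, ht.d, lt_of_lt_of_le ht.X (by linarith), lt_of_lt_of_le ht.Y (by linarith)⟩
  have hU : ContDiffAt ℝ ∞ (U5 i ρ ξ) (mT t.2.2 L0 t) := smooth_U5 h hP H hξ hD5 ht.b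
  have hUm : ContDiffAt ℝ ∞ (fun t' => U5 i ρ ξ (mT t.2.2 L0 t')) t :=
    ContDiffAt.comp (g := U5 i ρ ξ) (f := mT t.2.2 L0) t hU hm
  have c2 : ContinuousAt (fderiv ℝ (fun t' => U5 i ρ ξ (mT t.2.2 L0 t'))) t :=
    (hUm.fderiv_right (m := ∞) (by simp)).continuousAt
  exact tendsto_nhds_unique ((c1.tendsto.comp (gT_tendsto t)).congr' hev)
    (c2.tendsto.comp (gT_tendsto t))

/-! ### along maps -/

section maps

variable {E : Type*} [NormedAddCommGroup E] [NormedSpace ℝ E]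

/-- the maps of a neck: configuration, half difference, the two coordinates, the logarithm of the
first one -/
structure NMap (i : Fin 5) (V : Set C6) (ρ : ℝ) (q : E → C6) (d X Y L : E → ℂ) (p : E) :
    Prop where
  dq : DifferentiableAt ℝ q p
  dd : DifferentiableAt ℝ d p
  dX : DifferentiableAt ℝ X p
  cL : ContinuousAt L p
  mul : ∀ᶠ p' in 𝓝 p, X p' * Y p' = d p' ^ 2
  exp : ∀ᶠ p' in 𝓝 p, Complex.exp (L p') = X p'
  mq : q p ∈ V
  md0 : d p ≠ 0
  md : ‖d p‖ < ρ / 2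
  mX : ‖X p‖ < ρ
  mY : ‖Y p‖ < ρ
  mb : bb i (d p, q p) ∈ XO

/-- the configuration and the mark -/
def PsE (i : Fin 5) (q : E → C6) (d X Y : E → ℂ) (p : E) : C6 × ℂ :=
  (bb i (d p, q p), q p i.castSucc + (X p + Y p) / 2)

variable {q : E → C6} {d X Y L : E → ℂ} {p : E}

theorem NMap.X0 (hM : NMap i V ρ q d X Y L p) : X p ≠ 0 := by
  rw [← hM.exp.self_of_nhds]
  exact Complex.exp_ne_zero _

theorem NMap.YT (hM : NMap i V ρ q d X Y L p) :
    ∀ᶠ p' in 𝓝 p, Link.YT (q p', d p', X p') = Y p' := by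
  filter_upwards [hM.mul, hM.exp] with p' h1 h2
  have h3 : X p' ≠ 0 := by rw [← h2]; exact Complex.exp_ne_zero _
  unfold Link.YT
  rw [div_eq_iff h3, ← h1]
  ring

/-- all the coordinates -/
theorem NMap.eq_mT (hM : NMap i V ρ q d X Y L p) :
    ∀ᶠ p' in 𝓝 p, mT (X p) (L p) (q p', d p', X p') = (q p', d p', X p', Y p', L p') := by
  have hX0 := hM.X0
  have h1 : ContinuousAt (fun p' => Complex.log (X p' / X p) + L p) p := by
    have h2 : ContinuousAt (fun p' => X p' / X p) p := hM.dX.continuousAt.div_const _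
    have h3 : X p / X p ∈ Complex.slitPlane := by
      rw [div_self hX0]
      exact Complex.one_mem_slitPlane
    exact (ContinuousAt.comp (g := Complex.log) (f := fun p' => X p' / X p)
      (Complex.differentiableAt_log h3).continuousAt h2).add continuousAt_const
  have h4 : ∀ᶠ p' in 𝓝 p, Complex.log (X p' / X p) + L p = L p' := by
    refine ev_eq_of_exp h1 hM.cL ?_ ?_
    · rw [div_self hX0, Complex.log_one, zero_add]
    · filter_upwards [hM.exp] with p' h2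
      have h3 : X p' ≠ 0 := by rw [← h2]; exact Complex.exp_ne_zero _
      rw [Complex.exp_add, Complex.exp_log (div_ne_zero h3 hX0), hM.exp.self_of_nhds, h2,
        div_mul_cancel₀ _ hX0]
  filter_upwards [h4, hM.YT] with p' h5 h6
  unfold mT
  rw [h6]
  simp only [h5]

theorem NMap.eq_PsT (hM : NMap i V ρ q d X Y L p) :
    ∀ᶠ p' in 𝓝 p, PsT i (q p', d p', X p') = PsE i q d X Y p' := by
  filter_upwards [hM.YT] with p' h6
  unfold PsT PsE zT
  rw [h6]

theorem NMap.ff_eq (hM : NMap i V ρ q d X Y L p) : ff (PsE i q d X Y p) =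
    ((X p - Y p) / 2 * GG i (q p) ((X p + Y p) / 2)) ^ 2 := by
  rw [← hM.eq_PsT.self_of_nhds, ff_PsT']
  unfold zT
  rw [hM.YT.self_of_nhds]
  have h1 : X p * Y p = d p ^ 2 := hM.mul.self_of_nhds
  linear_combination GG i (q p) ((X p + Y p) / 2) ^ 2 * h1

theorem NMap.d3 (hM : NMap i V ρ q d X Y L p) (hne : X p ≠ Y p) :
    D3 i V ρ (q p, d p, X p) where
  q := hM.mq
  d0 := hM.md0
  d := hM.md
  X0 := hM.X0
  X := hM.mX
  Y := by rw [hM.YT.self_of_nhds]; exact hM.mY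
  b := hM.mb
  ne := by rw [hM.YT.self_of_nhds]; exact hne

/-- **THE LINK IN THE NECK** -/
theorem neck_link (h : NB i V ρ) (hP : PotHyp) (H : Stms) {ξ : Fin 6 → ℝ}
    (hξ : H908.alt ξ = 0) (hM : NMap i V ρ q d X Y L p) {y : ℂ}
    (hy : y ^ 2 = ff (PsE i q d X Y p)) (hy0 : y ≠ 0) :
    ∃ ε : ℝ, (ε = 1 ∨ ε = -1) ∧ y = ε * ((X p - Y p) / 2 * GG i (q p) ((X p + Y p) / 2)) ∧
      (etaX H ξ (bb i (d p, q p)) (q p i.castSucc + (X p + Y p) / 2) y).comp
        (fderiv ℝ (PsE i q d X Y) p) =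
      ε • fderiv ℝ (fun p => U5 i ρ ξ (q p, d p, X p, Y p, L p)) p := by
  have hff := hM.ff_eq
  have hs0 : (X p - Y p) / 2 * GG i (q p) ((X p + Y p) / 2) ≠ 0 := by
    intro h0
    rw [hff, h0, zero_pow two_ne_zero] at hy
    exact hy0 (pow_eq_zero_iff two_ne_zero |>.1 hy)
  have hne : X p ≠ Y p := by
    intro h0
    apply hs0
    rw [h0, sub_self, zero_div, zero_mul]
  have ht := hM.d3 hne
  have hsq : (y / ((X p - Y p) / 2 * GG i (q p) ((X p + Y p) / 2))) ^ 2 = 1 := by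
    rw [div_pow, hy, hff, div_self (pow_ne_zero 2 hs0)]
  obtain ⟨ε, hε, he⟩ := sq_eq_one hsq
  have hyε : y = ε * ((X p - Y p) / 2 * GG i (q p) ((X p + Y p) / 2)) := by
    rw [← he, div_mul_cancel₀ _ hs0]
  refine ⟨ε, hε, hyε, ?_⟩
  -- the space of coordinates
  have hL : Complex.exp (L p) = X p := hM.exp.self_of_nhds
  have key := all_link h hP H hξ ht hL
  have dt : DifferentiableAt ℝ (fun p => ((q p, d p, X p) : T3)) p :=
    hM.dq.prodMk (hM.dd.prodMk hM.dX)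
  have dP : DifferentiableAt ℝ (PsT i) (q p, d p, X p) :=
    (smooth_PsT ht.X0).differentiableAt (by simp)
  have hs1 : X p / X p ∈ Complex.slitPlane := by
    rw [div_self hM.X0]
    exact Complex.one_mem_slitPlane
  have hρ := h.pos
  have dU : DifferentiableAt ℝ (fun t' => U5 i ρ ξ (mT (X p) (L p) t')) (q p, d p, X p) := by
    have hD5 : D5 i V ρ (mT (X p) (L p) (q p, d p, X p)) :=
      ⟨ht.q, ht.d, lt_of_lt_of_le ht.X (by linarith), lt_of_lt_of_le ht.Y (by linarith)⟩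
    have h1 : ContDiffAt ℝ ∞ (mT (X p) (L p)) (q p, d p, X p) := smooth_mT ht.X0 hs1
    have h2 : ContDiffAt ℝ ∞ (U5 i ρ ξ) (mT (X p) (L p) (q p, d p, X p)) :=
      smooth_U5 h hP H hξ hD5 ht.b
    exact (ContDiffAt.comp (g := U5 i ρ ξ) (f := mT (X p) (L p)) _ h2 h1).differentiableAt
      (by simp)
  have e1 : fderiv ℝ (PsE i q d X Y) p =
      (fderiv ℝ (PsT i) (q p, d p, X p)).comp (fderiv ℝ (fun p => ((q p, d p, X p) : T3)) p) := by
    have h1 : HasFDerivAt (fun p => PsT i (q p, d p, X p))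
        ((fderiv ℝ (PsT i) (q p, d p, X p)).comp
          (fderiv ℝ (fun p => ((q p, d p, X p) : T3)) p)) p :=
      HasFDerivAt.comp (g := PsT i) (f := fun p => ((q p, d p, X p) : T3)) p dP.hasFDerivAt
        dt.hasFDerivAt
    exact (h1.congr_of_eventuallyEq (hM.eq_PsT.mono fun p' h => h.symm)).fderiv
  have e2 : fderiv ℝ (fun p => U5 i ρ ξ (q p, d p, X p, Y p, L p)) p =
      (fderiv ℝ (fun t' => U5 i ρ ξ (mT (X p) (L p) t')) (q p, d p, X p)).comp
        (fderiv ℝ (fun p => ((q p, d p, X p) : T3)) p) := by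
    have h1 : HasFDerivAt (fun p' => U5 i ρ ξ (mT (X p) (L p) (q p', d p', X p')))
        ((fderiv ℝ (fun t' => U5 i ρ ξ (mT (X p) (L p) t')) (q p, d p, X p)).comp
          (fderiv ℝ (fun p => ((q p, d p, X p) : T3)) p)) p :=
      HasFDerivAt.comp (g := fun t' => U5 i ρ ξ (mT (X p) (L p) t'))
        (f := fun p => ((q p, d p, X p) : T3)) p dU.hasFDerivAt dt.hasFDerivAt
    refine (h1.congr_of_eventuallyEq (hM.eq_mT.mono fun p' h => ?_)).fderiv
    simp only [h]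
  have e3 : sT i (q p, d p, X p) = (X p - Y p) / 2 * GG i (q p) ((X p + Y p) / 2) := by
    unfold sT zT
    rw [hM.YT.self_of_nhds]
  have e4 : PsT i (q p, d p, X p) = (bb i (d p, q p), q p i.castSucc + (X p + Y p) / 2) :=
    hM.eq_PsT.self_of_nhds
  rw [e3, e4] at key
  have e5 : etaX H ξ (bb i (d p, q p)) (q p i.castSucc + (X p + Y p) / 2) y =
      ε • etaX H ξ (bb i (d p, q p)) (q p i.castSucc + (X p + Y p) / 2)
        ((X p - Y p) / 2 * GG i (q p) ((X p + Y p) / 2)) := by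
    rcases hε with rfl | rfl
    · rw [hyε, one_smul, Complex.ofReal_one, one_mul]
    · rw [hyε, Complex.ofReal_neg, Complex.ofReal_one, neg_one_mul]
      refine (eta_neg _ _ _).trans ?_
      refine ContinuousLinearMap.ext fun v => ?_
      rw [ContinuousLinearMap.neg_apply, ContinuousLinearMap.smul_apply, smul_eq_mul, neg_one_mul]
      rfl
  rw [e1, e2, e5, ← key, ContinuousLinearMap.smul_comp]
  rfl

/-- **THE LINK IN THE CHARTS** -/
theorem chart_link (H : Stms) {ξ : Fin 6 → ℝ} (hξ : H908.alt ξ = 0) {S : Finset (Fin 6)}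
    {b : E → C6} {x : E → ℂ} {p : E} (hb : DifferentiableAt ℝ b p)
    (hx : DifferentiableAt ℝ x p) (hD : (b p, x p) ∈ Dm S) (hX : b p ∈ XO) (y : ℂ) :
    (etaX H ξ (b p) (x p) y).comp (fderiv ℝ (fun p => (b p, x p)) p) =
      (y / H857.sq S (b p) (x p)).re • fderiv ℝ (fun p =>
        AX ξ (b p) (P 0 S (b p) (x p), P 1 S (b p) (x p)) + cX ξ (b p)) p := by
  have hF := flatX H hξ
  have h1 : etaX H ξ (b p) (x p) y = (y / H857.sq S (b p) (x p)).re •
      fderiv ℝ (Gf (PQ H) (AX ξ) (cX ξ) S) (b p, x p) := hF.eta_eq hX hD y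
  have hG : DifferentiableAt ℝ (Gf (PQ H) (AX ξ) (cX ξ) S) (b p, x p) := hF.diffG hD hX
  have h2 : HasFDerivAt (fun p => AX ξ (b p) (P 0 S (b p) (x p), P 1 S (b p) (x p)) +
      cX ξ (b p)) ((fderiv ℝ (Gf (PQ H) (AX ξ) (cX ξ) S) (b p, x p)).comp
        (fderiv ℝ (fun p => (b p, x p)) p)) p :=
    HasFDerivAt.comp (g := Gf (PQ H) (AX ξ) (cX ξ) S) (f := fun p => (b p, x p)) p
      hG.hasFDerivAt (hb.prodMk hx).hasFDerivAt
  rw [h1, h2.fderiv, ContinuousLinearMap.smul_comp]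

end maps

end

end Vale.Agent.P273.H356.Link
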