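import Vale.Agent.P273.H356.Asy1Cl

/-!
# P273, the bounds at one node: from local to compact sets
-/

set_option autoImplicit false

noncomputable section

namespace Vale.Agent.P273.H356

open Vale.Agent.P273.H95 Vale.Agent.P273.H879 Set Filter
open scoped Topology

/-- the five clauses at one point -/
structure Bds (Th : Gauge) (k : Fin 5) (c B r : ℝ) (R : Region1) (m : Fin (R.n + 1))
    (S : L → Bool) (p : Co1 R m) (g : ℂ) (v : L → ℂ) : Prop where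
  /-- all classes -/
  t0 : ∀ (j : L) (ξ : Fin 6 → ℝ) (d : Dir1 R m), IsCl ξ →
    |Th.θ j ξ S (toE k c p) (R.sht (toSp c p) g v) (fderiv ℝ (toE k c) p (evec p d))| ≤
      B * ‖ξ‖ * (Real.sqrt (p.2.2.1 ()) * H879.cst p d)
  /-- classes with equal numbers on the pair -/
  t1 : ∀ (j : L) (ξ : Fin 6 → ℝ) (d : Dir1 R m), IsCl ξ → ξ k.castSucc = ξ k.succ →
    |Th.θ j ξ S (toE k c p) (R.sht (toSp c p) g v) (fderiv ℝ (toE k c) p (evec p d))| ≤
      B * ‖ξ‖ * H879.cst p d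
  /-- the class of the pair -/
  t2 : ∀ (j : L) (d : Dir1 R m),
    |Th.θ j (prc k) S (toE k c p) (R.sht (toSp c p) g v) (fderiv ℝ (toE k c) p (evec p d))| ≤
      B * ((Real.sqrt (p.2.2.1 ()))⁻¹ * H879.cst p d)
  /-- zero near the other roots -/
  root : ∀ j : L, R.nk j = false → S j = false →
    (∃ l, ‖R.pos (toSp c p) j - R.oth (toSp c p) l‖ < r) →
    ∀ ξ, IsCl ξ → Th.θ j ξ S (toE k c p) (R.sht (toSp c p) g v) = 0
  /-- same type marks close to each other have the same form -/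
  col : ∀ i j : L, i ≠ j → i.2 = j.2 → Close r S (toSp c p) g v i j →
    ∀ ξ, IsCl ξ → Th.θ i ξ S (toE k c p) (R.sht (toSp c p) g v) =
      Th.θ j ξ S (toE k c p) (R.sht (toSp c p) g v)

theorem close_mono {R : Region1} {r r' : ℝ} (h : r ≤ r') {S : L → Bool} {p : R.Sp} {g : ℂ}
    {v : L → ℂ} {i j : L} (hc : Close r S p g v i j) : Close r' S p g v i j := by
  unfold Close at hc ⊢
  split_ifs at hc ⊢
  · exact ⟨hc.1, hc.2.trans_le h⟩
  · exact ⟨hc.1.trans_le h, hc.2.trans_le h⟩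
  · exact ⟨hc.1.trans_le h, hc.2.trans_le h⟩

theorem cst_nonneg {R : Region1} {m : Fin (R.n + 1)} {p : Co1 R m} (hy : 0 < p.2.2.1 ())
    (d : Dir1 R m) : 0 ≤ H879.cst p d := by
  cases d <;> simp only [H879.cst] <;> positivity

theorem Bds.mono {Th : Gauge} {k : Fin 5} {c B r B' r' : ℝ} {R : Region1} {m : Fin (R.n + 1)}
    {S : L → Bool} {p : Co1 R m} {g : ℂ} {v : L → ℂ} (h : Bds Th k c B r R m S p g v)
    (hy : 0 < p.2.2.1 ()) (hB : B ≤ B') (hr : r' ≤ r) : Bds Th k c B' r' R m S p g v where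
  t0 j ξ d hξ := by
    refine (h.t0 j ξ d hξ).trans ?_
    have := cst_nonneg hy d
    gcongr
  t1 j ξ d hξ h1 := by
    refine (h.t1 j ξ d hξ h1).trans ?_
    have := cst_nonneg hy d
    gcongr
  t2 j d := by
    refine (h.t2 j d).trans ?_
    have := cst_nonneg hy d
    gcongr
  root j h1 h2 h3 := by
    obtain ⟨l, hl⟩ := h3
    exact h.root j h1 h2 ⟨l, hl.trans_le hr⟩
  col i j h1 h2 h3 := h.col i j h1 h2 (close_mono hr h3)

/-- the bounds over a set of merged configurations -/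
def BdOn (Th : Gauge) (k : Fin 5) (K : Set H681.C6) : Prop := ∃ c₀ > 0, ∀ c, 0 < c → c ≤ c₀ →
  ∃ R₁ > 0, ∀ R₀ ≥ R₁, ∃ (M₀ B r : ℝ), 0 < M₀ ∧ 0 < B ∧ 0 < r ∧
  ∀ (R : Region1) (m : Fin (R.n + 1)) (S : L → Bool) (p : Co1 R m) (g : ℂ) (v : L → ℂ),
    InReg k K c R₀ M₀ S p g v → Bds Th k c B r R m S p g v

/-- **WALL: the bounds near one merged configuration** -/
def AsyLoc (Th : Gauge) : Prop := ∀ k : Fin 5, ∀ q₀ ∈ H828.XD k, ∃ U ∈ 𝓝 q₀,
  BdOn Th k (U ∩ H828.XD k)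

theorem inReg_mono {k : Fin 5} {K K' : Set H681.C6} (hK : K ⊆ K') {c R₀ M₀ M : ℝ} (hM : M ≤ M₀)
    {R : Region1} {m : Fin (R.n + 1)} {S : L → Bool} {p : Co1 R m} {g : ℂ} {v : L → ℂ}
    (h : InReg k K c R₀ M₀ S p g v) : InReg k K' c R₀ M S p g v :=
  { h with base := hK h.base, y := hM.trans h.y }

theorem bdOn_mono {Th : Gauge} {k : Fin 5} {K K' : Set H681.C6} (hK : K ⊆ K')
    (h : BdOn Th k K') : BdOn Th k K := by
  obtain ⟨c₀, hc₀, h⟩ := h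
  refine ⟨c₀, hc₀, fun c hc hcc => ?_⟩
  obtain ⟨R₁, hR₁, h⟩ := h c hc hcc
  refine ⟨R₁, hR₁, fun R₀ hR₀ => ?_⟩
  obtain ⟨M₀, B, r, hM₀, hB, hr, h⟩ := h R₀ hR₀
  exact ⟨M₀, B, r, hM₀, hB, hr, fun R m S p g v hp => h R m S p g v (inReg_mono hK le_rfl hp)⟩

theorem bdOn_empty (Th : Gauge) (k : Fin 5) : BdOn Th k ∅ :=
  ⟨1, one_pos, fun _ _ _ => ⟨1, one_pos, fun _ _ => ⟨1, 1, 1, one_pos, one_pos, one_pos,
    fun _ _ _ _ _ _ hp => absurd hp.base (Set.notMem_empty _)⟩⟩⟩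

theorem bdOn_union {Th : Gauge} {k : Fin 5} {K K' : Set H681.C6} (h : BdOn Th k K)
    (h' : BdOn Th k K') : BdOn Th k (K ∪ K') := by
  obtain ⟨c₀, hc₀, h⟩ := h
  obtain ⟨c₀', hc₀', h'⟩ := h'
  refine ⟨min c₀ c₀', lt_min hc₀ hc₀', fun c hc hcc => ?_⟩
  obtain ⟨R₁, hR₁, h⟩ := h c hc (hcc.trans (min_le_left _ _))
  obtain ⟨R₁', hR₁', h'⟩ := h' c hc (hcc.trans (min_le_right _ _))
  refine ⟨max R₁ R₁', lt_max_of_lt_left hR₁, fun R₀ hR₀ => ?_⟩
  obtain ⟨M₀, B, r, hM₀, hB, hr, h⟩ := h R₀ ((le_max_left _ _).trans hR₀)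
  obtain ⟨M₀', B', r', hM₀', hB', hr', h'⟩ := h' R₀ ((le_max_right _ _).trans hR₀)
  refine ⟨max M₀ M₀', max B B', min r r', lt_max_of_lt_left hM₀, lt_max_of_lt_left hB,
    lt_min hr hr', fun R m S p g v hp => ?_⟩
  have hy : 0 < p.2.2.1 () := lt_of_lt_of_le (lt_max_of_lt_left hM₀) hp.y
  rcases hp.base with h1 | h1
  · exact (h R m S p g v { hp with base := h1, y := (le_max_left _ _).trans hp.y }).mono hy
      (le_max_left _ _) (min_le_left _ _)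
  · exact (h' R m S p g v { hp with base := h1, y := (le_max_right _ _).trans hp.y }).mono hy
      (le_max_right _ _) (min_le_right _ _)

/-- **finite cover** -/
theorem asy1C_of_loc {Th : Gauge} (h : AsyLoc Th) : Asy1C Th := by
  intro k K hK hKc
  have h1 : BdOn Th k K := by
    refine hKc.induction_on (p := BdOn Th k) (bdOn_empty Th k) (fun s t hst ht => bdOn_mono hst ht)
      (fun s t hs ht => bdOn_union hs ht) fun q hq => ?_
    obtain ⟨U, hU, h2⟩ := h k q (hK hq)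
    refine ⟨U ∩ K, inter_mem (mem_nhdsWithin_of_mem_nhds hU) self_mem_nhdsWithin, ?_⟩
    exact bdOn_mono (inter_subset_inter_right U hK) h2
  obtain ⟨c₀, hc₀, h1⟩ := h1
  refine ⟨c₀, hc₀, fun c hc hcc => ?_⟩
  obtain ⟨R₁, hR₁, h1⟩ := h1 c hc hcc
  refine ⟨R₁, hR₁, fun R₀ hR₀ => ?_⟩
  obtain ⟨M₀, B, r, hM₀, hB, hr, h1⟩ := h1 R₀ hR₀
  refine ⟨M₀, B, r, hM₀, hB, hr, fun R m S p g v hp => ?_⟩
  have h2 := h1 R m S p g v hp
  exact ⟨h2.t0, h2.t1, h2.t2, h2.root, h2.col⟩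

/-- **the input of NEG from the local bounds** -/
theorem asy1_of_loc {Th : Gauge} (h : AsyLoc Th) : Asy1 Th := asy1_of (asy1C_of_loc h)

end Vale.Agent.P273.H356
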