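import Mathlib

/-!
# P273, block FLAT: colours and moves

A flat class is given by numbers `xi` (one for every root, modulo constants, with alternating sum
zero) in the frame of the region `XX`.  `col b xi` are the colours of the roots in the slit frame
of the configuration `b`; `sB i` is the action of the half twist number `i`.
-/

set_option autoImplicit false

open Finset

noncomputable section

namespace Vale.Agent.P273.H356

/-- the region of labelled configurations: of two roots with the same real part the one with the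
smaller label is above -/
def XX (n : ℕ) : Set (Fin n → ℂ) :=
  {b | ∀ i j, i < j → (b i).re = (b j).re → (b j).im < (b i).im}

variable {M : Type*} [AddCommGroup M]

/-- one step: reflection of `v` in the colour `xi i` if the label `i` is smaller than `j` and stands
on the right of `j` -/
def stp {n : ℕ} (b : Fin n → ℂ) (xi : Fin n → M) (j : Fin n) (v : M) (i : Fin n) : M :=
  if i < j ∧ (b j).re < (b i).re then xi i + xi i - v else v

/-- the colours in the slit frame of `b` -/
def col {n : ℕ} (b : Fin n → ℂ) (xi : Fin n → M) (j : Fin n) : M :=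
  (List.finRange n).reverse.foldl (stp b xi j) (xi j)

/-- the half twist number `i` -/
def sB {m : ℕ} (i : Fin m) (xi : Fin (m + 1) → M) (j : Fin (m + 1)) : M :=
  if j = i.castSucc then xi i.castSucc + xi i.castSucc - xi i.succ
  else if j = i.succ then xi i.castSucc else xi j

/-- the inverse of the half twist -/
def sBinv {m : ℕ} (i : Fin m) (xi : Fin (m + 1) → M) (j : Fin (m + 1)) : M :=
  if j = i.castSucc then xi i.succ
  else if j = i.succ then xi i.succ + xi i.succ - xi i.castSucc else xi j

section sB
variable {m : ℕ}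

theorem castSucc_ne_succ (i : Fin m) : i.castSucc ≠ i.succ :=
  (Fin.castSucc_lt_succ (i := i)).ne

@[simp] theorem sB_cs (i : Fin m) (xi : Fin (m + 1) → M) :
    sB i xi i.castSucc = xi i.castSucc + xi i.castSucc - xi i.succ := by simp [sB]

@[simp] theorem sB_sc (i : Fin m) (xi : Fin (m + 1) → M) :
    sB i xi i.succ = xi i.castSucc := by
  simp [sB, (castSucc_ne_succ i).symm]

theorem sB_of_ne {i : Fin m} {j : Fin (m + 1)} (h1 : j ≠ i.castSucc) (h2 : j ≠ i.succ)
    (xi : Fin (m + 1) → M) : sB i xi j = xi j := by simp [sB, h1, h2]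

theorem sBinv_sB (i : Fin m) (xi : Fin (m + 1) → M) : sBinv i (sB i xi) = xi := by
  funext j
  by_cases h1 : j = i.castSucc
  · simp [sBinv, h1]
  · by_cases h2 : j = i.succ
    · simp [sBinv, h2, (castSucc_ne_succ i).symm]
    · simp [sBinv, h1, h2, sB_of_ne h1 h2]

theorem sB_sBinv (i : Fin m) (xi : Fin (m + 1) → M) : sB i (sBinv i xi) = xi := by
  funext j
  by_cases h1 : j = i.castSucc
  · rw [h1, sB_cs]
    simp [sBinv, (castSucc_ne_succ i).symm]
  · by_cases h2 : j = i.succ
    · rw [h2, sB_sc]
      simp [sBinv]
    · rw [sB_of_ne h1 h2]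
      simp [sBinv, h1, h2]

theorem sB_add (i : Fin m) (xi eta : Fin (m + 1) → M) :
    sB i (fun j => xi j + eta j) = fun j => sB i xi j + sB i eta j := by
  funext j
  by_cases h1 : j = i.castSucc
  · rw [h1]
    simp only [sB_cs]
    abel
  · by_cases h2 : j = i.succ
    · rw [h2]
      simp only [sB_sc]
    · simp only [sB_of_ne h1 h2]

theorem sB_const (i : Fin m) (c : M) : sB i (fun _ => c) = fun _ => c := by
  funext j
  simp [sB]

end sB

section fold
variable {n : ℕ}

theorem foldl_congr' {α β : Type*} {f g : β → α → β} {l : List α} (h : ∀ v, ∀ a ∈ l, f v a = g v a)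
    (v : β) : l.foldl f v = l.foldl g v := by
  induction l generalizing v with
  | nil => rfl
  | cons a l ih =>
    simp only [List.foldl_cons]
    rw [h v a (List.mem_cons_self), ih fun v b hb => h v b (List.mem_cons_of_mem a hb)]

theorem foldl_id' {α β : Type*} {f : β → α → β} {l : List α} (h : ∀ v, ∀ a ∈ l, f v a = v)
    (v : β) : l.foldl f v = v := by
  induction l generalizing v with
  | nil => rfl
  | cons a l ih =>
    simp only [List.foldl_cons]
    rw [h v a (List.mem_cons_self), ih fun v b hb => h v b (List.mem_cons_of_mem a hb)]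

/-- without inversions the colours are the numbers -/
theorem col_of_forall {b : Fin n → ℂ} {j : Fin n} (h : ∀ i, i < j → (b i).re ≤ (b j).re)
    (xi : Fin n → M) : col b xi j = xi j := by
  refine foldl_id' (fun v i _ => ?_) _
  rw [stp, if_neg]
  rintro ⟨h1, h2⟩
  exact absurd (h i h1) (not_le.mpr h2)

theorem col_of_monotone {b : Fin n → ℂ} (h : Monotone fun i => (b i).re) (xi : Fin n → M) :
    col b xi = xi := by
  funext j
  exact col_of_forall (fun i hi => h hi.le) xi

theorem stp_const (b : Fin n → ℂ) (c : M) (j i : Fin n) : stp b (fun _ => c) j c i = c := by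
  simp [stp]

theorem col_const (b : Fin n → ℂ) (c : M) : col b (fun _ : Fin n => c) = fun _ => c := by
  funext j
  have h : ∀ l : List (Fin n), l.foldl (stp b (fun _ => c) j) c = c := by
    intro l
    induction l with
    | nil => rfl
    | cons a l ih => rw [List.foldl_cons, stp_const, ih]
  exact h _

theorem foldl_stp_add (b : Fin n → ℂ) (xi eta : Fin n → M) (j : Fin n) (l : List (Fin n))
    (v w : M) : l.foldl (stp b (fun k => xi k + eta k) j) (v + w) =
      l.foldl (stp b xi j) v + l.foldl (stp b eta j) w := by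
  induction l generalizing v w with
  | nil => rfl
  | cons a l ih =>
    simp only [List.foldl_cons]
    have h : stp b (fun k => xi k + eta k) j (v + w) a = stp b xi j v a + stp b eta j w a := by
      simp only [stp]
      split_ifs
      · abel
      · rfl
    rw [h, ih]

theorem col_add (b : Fin n → ℂ) (xi eta : Fin n → M) :
    col b (fun j => xi j + eta j) = fun j => col b xi j + col b eta j := by
  funext j
  exact foldl_stp_add b xi eta j _ _ _

/-- naturality under additive maps -/
theorem foldl_stp_map {M' : Type*} [AddCommGroup M'] (L : M →+ M') (b : Fin n → ℂ)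
    (xi : Fin n → M) (j : Fin n) (l : List (Fin n)) (v : M) :
    L (l.foldl (stp b xi j) v) = l.foldl (stp b (fun k => L (xi k)) j) (L v) := by
  induction l generalizing v with
  | nil => rfl
  | cons a l ih =>
    simp only [List.foldl_cons]
    have h : L (stp b xi j v a) = stp b (fun k => L (xi k)) j (L v) a := by
      simp only [stp]
      split_ifs
      · rw [map_sub, map_add]
      · rfl
    rw [ih, h]

theorem col_map {M' : Type*} [AddCommGroup M'] (L : M →+ M') (b : Fin n → ℂ) (xi : Fin n → M)
    (j : Fin n) : L (col b xi j) = col b (fun k => L (xi k)) j :=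
  foldl_stp_map L b xi j _ _

end fold

section split
variable {m : ℕ}

/-- the list of all labels, cut at two neighbours -/
theorem finRange_split (i : Fin m) : ∃ A B : List (Fin (m + 1)),
    List.finRange (m + 1) = A ++ ([i.castSucc, i.succ] ++ B) ∧
      (∀ l ∈ A, l < i.castSucc) ∧ ∀ l ∈ B, i.succ < l := by
  have h0 : (i : ℕ) < (List.finRange (m + 1)).length := by simp
  have h1 : (i : ℕ) + 1 < (List.finRange (m + 1)).length := by simp
  refine ⟨(List.finRange (m + 1)).take i, (List.finRange (m + 1)).drop (i + 2), ?_, ?_, ?_⟩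
  · have e1 : (List.finRange (m + 1)).drop i =
        (List.finRange (m + 1))[(i : ℕ)] :: (List.finRange (m + 1)).drop (i + 1) :=
      List.drop_eq_getElem_cons h0
    have e2 : (List.finRange (m + 1)).drop (i + 1) =
        (List.finRange (m + 1))[(i : ℕ) + 1] :: (List.finRange (m + 1)).drop (i + 1 + 1) :=
      List.drop_eq_getElem_cons h1
    have g0 : (List.finRange (m + 1))[(i : ℕ)] = i.castSucc := by
      rw [List.getElem_finRange]
      ext
      simp
    have g1 : (List.finRange (m + 1))[(i : ℕ) + 1] = i.succ := by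
      rw [List.getElem_finRange]
      ext
      simp
    rw [g0] at e1
    rw [g1] at e2
    have e3 := List.take_append_drop (i : ℕ) (List.finRange (m + 1))
    rw [e1, e2] at e3
    exact e3.symm
  · intro l hl
    rw [List.mem_take_iff_getElem] at hl
    obtain ⟨k, hk, hl⟩ := hl
    rw [List.getElem_finRange] at hl
    rw [← hl, Fin.lt_def]
    simp only [Fin.val_cast, Fin.val_castSucc] at *
    omega
  · intro l hl
    rw [List.mem_drop_iff_getElem] at hl
    obtain ⟨k, hk, hl⟩ := hl
    rw [List.getElem_finRange] at hl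
    rw [← hl, Fin.lt_def]
    simp only [Fin.val_cast, Fin.val_succ]
    omega

/-- **equivariance**: the colours of `b` are those of the configuration with the labels `i` and
`i + 1` exchanged, for the numbers moved by the half twist -/
theorem col_swap (i : Fin m) {b : Fin (m + 1) → ℂ} (h : (b i.succ).re < (b i.castSucc).re)
    (xi : Fin (m + 1) → M) (j : Fin (m + 1)) :
    col b xi j = col (b ∘ Equiv.swap i.castSucc i.succ) (sB i xi)
      (Equiv.swap i.castSucc i.succ j) := by
  obtain ⟨A, B, hl, hA, hB⟩ := finRange_split i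
  have hcs : i.castSucc < i.succ := Fin.castSucc_lt_succ
  have hne := castSucc_ne_succ i
  set w := Equiv.swap i.castSucc i.succ with hw
  have w1 : w i.castSucc = i.succ := Equiv.swap_apply_left _ _
  have w2 : w i.succ = i.castSucc := Equiv.swap_apply_right _ _
  have w3 : ∀ l, l ≠ i.castSucc → l ≠ i.succ → w l = l := fun l h1 h2 =>
    Equiv.swap_apply_of_ne_of_ne h1 h2
  have hA' : ∀ l ∈ A, w l = l ∧ sB i xi l = xi l ∧ l < i.succ := by
    intro l hl
    have h1 := (hA l hl).ne
    have h2 := ((hA l hl).trans hcs).ne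
    exact ⟨w3 l h1 h2, sB_of_ne h1 h2 xi, (hA l hl).trans hcs⟩
  have hB' : ∀ l ∈ B, w l = l ∧ sB i xi l = xi l ∧ i.castSucc < l := by
    intro l hl
    have h1 := (hcs.trans (hB l hl)).ne'
    have h2 := (hB l hl).ne'
    exact ⟨w3 l h1 h2, sB_of_ne h1 h2 xi, hcs.trans (hB l hl)⟩
  simp only [col]
  rw [hl, List.reverse_append, List.reverse_append, List.foldl_append, List.foldl_append,
    List.foldl_append, List.foldl_append]
  simp only [List.reverse_cons, List.reverse_nil, List.nil_append, List.cons_append,
    List.foldl_cons, List.foldl_nil]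
  rcases lt_trichotomy j i.castSucc with hj | hj | hj
  · -- small labels
    have hj1 : j ≠ i.castSucc := hj.ne
    have hj2 : j ≠ i.succ := (hj.trans hcs).ne
    rw [w3 j hj1 hj2]
    have e1 : ∀ v : M, B.reverse.foldl (stp b xi j) v = v := fun v =>
      foldl_id' (fun v l hl => if_neg fun h => absurd h.1
        (not_lt.mpr (hj.trans (hB' l (List.mem_reverse.mp hl)).2.2).le)) v
    have e2 : ∀ v : M, B.reverse.foldl (stp (b ∘ w) (sB i xi) j) v = v := fun v =>
      foldl_id' (fun v l hl => if_neg fun h => absurd h.1
        (not_lt.mpr (hj.trans (hB' l (List.mem_reverse.mp hl)).2.2).le)) v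
    rw [e1, e2]
    have e3 : ∀ v : M, stp b xi j v i.succ = v := fun v => if_neg fun h => absurd h.1
      (not_lt.mpr (hj.trans hcs).le)
    have e4 : ∀ v : M, stp b xi j v i.castSucc = v := fun v => if_neg fun h => absurd h.1
      (not_lt.mpr hj.le)
    have e5 : ∀ v : M, stp (b ∘ w) (sB i xi) j v i.succ = v := fun v => if_neg fun h =>
      absurd h.1 (not_lt.mpr (hj.trans hcs).le)
    have e6 : ∀ v : M, stp (b ∘ w) (sB i xi) j v i.castSucc = v := fun v => if_neg fun h =>
      absurd h.1 (not_lt.mpr hj.le)
    rw [e3, e4, e5, e6, sB_of_ne hj1 hj2]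
    refine foldl_congr' (fun v l hl => ?_) _
    have h1 := hA' l (List.mem_reverse.mp hl)
    simp only [stp, Function.comp_apply, h1.1, h1.2.1, w3 j hj1 hj2]
  · -- the label `i`
    subst hj
    rw [w1]
    have e1 : ∀ v : M, B.reverse.foldl (stp b xi i.castSucc) v = v := fun v =>
      foldl_id' (fun v l hl => if_neg fun h => absurd h.1
        (not_lt.mpr (hB' l (List.mem_reverse.mp hl)).2.2.le)) v
    have e2 : ∀ v : M, B.reverse.foldl (stp (b ∘ w) (sB i xi) i.succ) v = v := fun v =>
      foldl_id' (fun v l hl => if_neg fun h => absurd h.1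
        (not_lt.mpr (hB l (List.mem_reverse.mp hl)).le)) v
    rw [e1, e2]
    have e3 : ∀ v : M, stp b xi i.castSucc v i.succ = v := fun v => if_neg fun h =>
      absurd h.1 (not_lt.mpr hcs.le)
    have e4 : ∀ v : M, stp b xi i.castSucc v i.castSucc = v := fun v => if_neg fun h =>
      absurd h.1 (lt_irrefl _)
    have e5 : ∀ v : M, stp (b ∘ w) (sB i xi) i.succ v i.succ = v := fun v => if_neg fun h =>
      absurd h.1 (lt_irrefl _)
    have e6 : ∀ v : M, stp (b ∘ w) (sB i xi) i.succ v i.castSucc = v := by
      intro v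
      refine if_neg fun h' => ?_
      have h2 := h'.2
      simp only [Function.comp_apply, w1, w2] at h2
      exact absurd h2 (not_lt.mpr h.le)
    rw [e3, e4, e5, e6, sB_sc]
    refine foldl_congr' (fun v l hl => ?_) _
    have h1 := hA' l (List.mem_reverse.mp hl)
    have h2 := hA l (List.mem_reverse.mp hl)
    simp only [stp, Function.comp_apply, h1.1, h1.2.1, w2, h2, h1.2.2, true_and]
  · rcases eq_or_ne j i.succ with hj' | hj'
    · -- the label `i + 1`
      subst hj'
      rw [w2]
      have e1 : ∀ v : M, B.reverse.foldl (stp b xi i.succ) v = v := fun v =>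
        foldl_id' (fun v l hl => if_neg fun h => absurd h.1
          (not_lt.mpr (hB l (List.mem_reverse.mp hl)).le)) v
      have e2 : ∀ v : M, B.reverse.foldl (stp (b ∘ w) (sB i xi) i.castSucc) v = v := fun v =>
        foldl_id' (fun v l hl => if_neg fun h => absurd h.1
          (not_lt.mpr (hB' l (List.mem_reverse.mp hl)).2.2.le)) v
      rw [e1, e2]
      have e3 : ∀ v : M, stp b xi i.succ v i.succ = v := fun v => if_neg fun h =>
        absurd h.1 (lt_irrefl _)
      have e4 : ∀ v : M, stp b xi i.succ v i.castSucc = xi i.castSucc + xi i.castSucc - v :=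
        fun v => if_pos ⟨hcs, h⟩
      have e5 : ∀ v : M, stp (b ∘ w) (sB i xi) i.castSucc v i.succ = v := fun v => if_neg fun h =>
        absurd h.1 (not_lt.mpr hcs.le)
      have e6 : ∀ v : M, stp (b ∘ w) (sB i xi) i.castSucc v i.castSucc = v := fun v =>
        if_neg fun h => absurd h.1 (lt_irrefl _)
      rw [e3, e4, e5, e6, sB_cs]
      refine foldl_congr' (fun v l hl => ?_) _
      have h1 := hA' l (List.mem_reverse.mp hl)
      have h2 := hA l (List.mem_reverse.mp hl)
      simp only [stp, Function.comp_apply, h1.1, h1.2.1, w1, h2, h1.2.2, true_and]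
    · -- large labels
      have hj0 : i.succ < j := by
        rcases lt_or_ge i.succ j with h1 | h1
        · exact h1
        · exfalso
          have h2 : j < i.succ := lt_of_le_of_ne h1 hj'
          rw [Fin.lt_def] at h2 hj
          simp only [Fin.val_succ, Fin.val_castSucc] at h2 hj
          omega
      have hj1 : j ≠ i.castSucc := hj.ne'
      rw [w3 j hj1 hj', sB_of_ne hj1 hj']
      have e1 : ∀ v : M, B.reverse.foldl (stp b xi j) v =
          B.reverse.foldl (stp (b ∘ w) (sB i xi) j) v := by
        refine foldl_congr' (fun v l hl => ?_)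
        have h1 := hB' l (List.mem_reverse.mp hl)
        simp only [stp, Function.comp_apply, h1.1, h1.2.1, w3 j hj1 hj']
      rw [e1]
      have e2 : ∀ v : M, stp b xi j (stp b xi j v i.succ) i.castSucc =
          stp (b ∘ w) (sB i xi) j (stp (b ∘ w) (sB i xi) j v i.succ) i.castSucc := by
        intro v
        simp only [stp, Function.comp_apply, w1, w2, w3 j hj1 hj', hj, hj0, true_and, sB_sc, sB_cs]
        by_cases hq : (b j).re < (b i.succ).re
        · rw [if_pos hq, if_pos (hq.trans h), if_pos (hq.trans h), if_pos hq]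
          abel
        · rw [if_neg hq]
          by_cases hp : (b j).re < (b i.castSucc).re
          · rw [if_pos hp, if_neg hq]
          · rw [if_neg hp, if_neg hq]
      rw [e2]
      refine foldl_congr' (fun v l hl => ?_) _
      have h1 := hA' l (List.mem_reverse.mp hl)
      simp only [stp, Function.comp_apply, h1.1, h1.2.1, w3 j hj1 hj']

/-- a neighbouring inversion inside `XX` may be removed -/
theorem swap_mem_XX (i : Fin m) {b : Fin (m + 1) → ℂ} (hb : b ∈ XX (m + 1))
    (h : (b i.succ).re < (b i.castSucc).re) :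
    b ∘ Equiv.swap i.castSucc i.succ ∈ XX (m + 1) := by
  have hcs : i.castSucc < i.succ := Fin.castSucc_lt_succ
  set w := Equiv.swap i.castSucc i.succ with hw
  have w1 : w i.castSucc = i.succ := Equiv.swap_apply_left _ _
  have w2 : w i.succ = i.castSucc := Equiv.swap_apply_right _ _
  have w3 : ∀ l, l ≠ i.castSucc → l ≠ i.succ → w l = l := fun l h1 h2 =>
    Equiv.swap_apply_of_ne_of_ne h1 h2
  intro k l hkl hre
  simp only [Function.comp_apply] at hre ⊢
  rcases eq_or_ne k i.castSucc with hk | hk
  · rcases eq_or_ne l i.succ with hl | hl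
    · rw [hk, hl, w1, w2] at hre
      exact absurd hre h.ne
    · have hl1 : l ≠ i.castSucc := by
        rintro rfl
        exact absurd hk hkl.ne
      rw [hk, w1, w3 l hl1 hl] at hre ⊢
      refine hb _ _ ?_ hre
      rw [Fin.lt_def]
      rw [hk, Fin.lt_def] at hkl
      have h3 : (l : ℕ) ≠ i.succ := fun h4 => hl (Fin.ext h4)
      simp only [Fin.val_succ, Fin.val_castSucc] at h3 hkl ⊢
      omega
  · rcases eq_or_ne k i.succ with hk' | hk'
    · have hl1 : l ≠ i.castSucc := by
        rintro rfl
        rw [hk'] at hkl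
        exact absurd hkl (not_lt.mpr hcs.le)
      have hl : l ≠ i.succ := by
        rintro rfl
        exact absurd hk' hkl.ne
      rw [hk', w2, w3 l hl1 hl] at hre ⊢
      refine hb _ _ (hcs.trans ?_) hre
      rw [← hk']
      exact hkl
    · rw [w3 k hk hk'] at hre ⊢
      rcases eq_or_ne l i.castSucc with hl | hl
      · rw [hl, w1] at hre ⊢
        refine hb _ _ (lt_trans ?_ hcs) hre
        rw [← hl]
        exact hkl
      · rcases eq_or_ne l i.succ with hl' | hl'
        · rw [hl', w2] at hre ⊢
          refine hb _ _ ?_ hre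
          rw [Fin.lt_def]
          rw [hl', Fin.lt_def] at hkl
          have h3 : (k : ℕ) ≠ i.castSucc := fun h4 => hk (Fin.ext h4)
          simp only [Fin.val_succ, Fin.val_castSucc] at h3 hkl ⊢
          omega
        · rw [w3 l hl hl'] at hre ⊢
          exact hb _ _ hkl hre

end split

section pos
variable {m : ℕ}

/-- the position of the label `j` in the order of the real parts -/
def pos {n : ℕ} (b : Fin n → ℂ) (j : Fin n) : ℕ := #{l | (b l).re < (b j).re}

theorem pos_comp {n : ℕ} (b : Fin n → ℂ) (w : Equiv.Perm (Fin n)) (j : Fin n) :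
    pos (b ∘ w) j = pos b (w j) := by
  simp only [pos, Function.comp_apply]
  refine card_bij' (fun l _ => w l) (fun l _ => w.symm l) ?_ ?_ ?_ ?_
  · intro l hl
    simpa using hl
  · intro l hl
    simpa using hl
  · intro l _
    simp
  · intro l _
    simp

theorem pos_lt {n : ℕ} {b : Fin n → ℂ} {i j : Fin n} (h : (b i).re < (b j).re) :
    pos b i < pos b j := by
  refine card_lt_card ?_
  rw [Finset.ssubset_iff_of_subset]
  · exact ⟨i, by simpa using h, by simp⟩
  · intro l hl
    simp only [mem_filter, mem_univ, true_and] at hl ⊢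
    exact hl.trans h

theorem pos_le {n : ℕ} (b : Fin n → ℂ) (j : Fin n) : pos b j ≤ n := by
  have := card_le_univ (s := ({l | (b l).re < (b j).re} : Finset (Fin n)))
  simpa [pos] using this

/-- the measure of the bubble sort -/
def mu {n : ℕ} (b : Fin n → ℂ) : ℕ := ∑ j : Fin n, (n - j) * pos b j

theorem sum_split (i : Fin m) (f : Fin (m + 1) → ℕ) : ∑ j, f j =
    f i.castSucc + f i.succ + ∑ j ∈ (univ.erase i.castSucc).erase i.succ, f j := by
  rw [← add_sum_erase univ f (mem_univ i.castSucc), add_assoc,
    add_sum_erase _ f (mem_erase.mpr ⟨(castSucc_ne_succ i).symm, mem_univ _⟩)]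

theorem mu_swap (i : Fin m) {b : Fin (m + 1) → ℂ} (h : (b i.succ).re < (b i.castSucc).re) :
    mu (b ∘ Equiv.swap i.castSucc i.succ) < mu b := by
  simp only [mu, pos_comp]
  rw [sum_split i, sum_split i (fun j => (m + 1 - (j : ℕ)) * pos b j)]
  have e1 : ∑ j ∈ (univ.erase i.castSucc).erase i.succ,
      (m + 1 - (j : ℕ)) * pos b (Equiv.swap i.castSucc i.succ j) =
      ∑ j ∈ (univ.erase i.castSucc).erase i.succ, (m + 1 - (j : ℕ)) * pos b j := by
    refine sum_congr rfl fun j hj => ?_
    rw [mem_erase, mem_erase] at hj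
    rw [Equiv.swap_apply_of_ne_of_ne hj.2.1 hj.1]
  rw [e1, Equiv.swap_apply_left, Equiv.swap_apply_right]
  have h1 := pos_lt h
  have h2 : (i : ℕ) < m := i.isLt
  obtain ⟨k, hk⟩ : ∃ k, m + 1 - (i : ℕ) = k + 1 := ⟨m - i, by omega⟩
  have hk' : m + 1 - ((i : ℕ) + 1) = k := by omega
  simp only [Fin.val_castSucc, Fin.val_succ, hk, hk']
  nlinarith

/-- induction over neighbouring inversions -/
theorem adj_induction {P : (Fin (m + 1) → ℂ) → Prop}
    (h0 : ∀ b : Fin (m + 1) → ℂ, (Monotone fun i => (b i).re) → P b)
    (h1 : ∀ (b : Fin (m + 1) → ℂ) (i : Fin m), (b i.succ).re < (b i.castSucc).re →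
      P (b ∘ Equiv.swap i.castSucc i.succ) → P b) (b : Fin (m + 1) → ℂ) : P b := by
  induction hn : mu b using Nat.strong_induction_on generalizing b with
  | _ k ih =>
    by_cases hm : Monotone fun i => (b i).re
    · exact h0 b hm
    · rw [Fin.monotone_iff_le_succ] at hm
      push Not at hm
      obtain ⟨i, hi⟩ := hm
      refine h1 b i hi (ih _ ?_ _ rfl)
      rw [← hn]
      exact mu_swap i hi

/-- the alternating sum in the order of the real parts -/
def alt {n : ℕ} (b : Fin n → ℂ) (t : Fin n → M) : M := ∑ j, (-1 : ℤ) ^ pos b j • t j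

theorem alt_comp {n : ℕ} (b : Fin n → ℂ) (t : Fin n → M) (w : Equiv.Perm (Fin n)) :
    alt (b ∘ w) (t ∘ w) = alt b t := by
  simp only [alt, pos_comp, Function.comp_apply]
  exact Equiv.sum_comp w fun j => (-1 : ℤ) ^ pos b j • t j

theorem pos_of_strictMono {n : ℕ} {b : Fin n → ℂ} (h : StrictMono fun i => (b i).re) (j : Fin n) :
    pos b j = j := by
  have : ({l | (b l).re < (b j).re} : Finset (Fin n)) = univ.filter (· < j) := by
    refine filter_congr fun l _ => ?_
    exact h.lt_iff_lt
  rw [pos, this, filter_gt_eq_Iio, Fin.card_Iio]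

theorem sum_sB (i : Fin m) (xi : Fin (m + 1) → M) :
    ∑ j : Fin (m + 1), (-1 : ℤ) ^ (j : ℕ) • sB i xi j =
      ∑ j : Fin (m + 1), (-1 : ℤ) ^ (j : ℕ) • xi j := by
  rw [← sub_eq_zero, ← sum_sub_distrib]
  have hne := castSucc_ne_succ i
  rw [← add_sum_erase univ _ (mem_univ i.castSucc),
    ← add_sum_erase (univ.erase i.castSucc) _ (mem_erase.mpr ⟨hne.symm, mem_univ _⟩),
    sum_eq_zero (s := (univ.erase i.castSucc).erase i.succ)]
  · simp only [sB_cs, sB_sc, Fin.val_castSucc, Fin.val_succ, pow_succ, mul_neg, mul_one, neg_smul,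
      smul_add, smul_sub]
    abel
  · intro j hj
    rw [mem_erase, mem_erase] at hj
    rw [sB_of_ne hj.2.1 hj.1, sub_self]

/-- **alternating sums of colours** -/
theorem alt_col {b : Fin (m + 1) → ℂ} (hb : Function.Injective fun i => (b i).re)
    (xi : Fin (m + 1) → M) :
    alt b (col b xi) = ∑ j : Fin (m + 1), (-1 : ℤ) ^ (j : ℕ) • xi j := by
  revert xi hb
  refine adj_induction (P := fun b => (Function.Injective fun i => (b i).re) →
    ∀ xi : Fin (m + 1) → M,
      alt b (col b xi) = ∑ j : Fin (m + 1), (-1 : ℤ) ^ (j : ℕ) • xi j) ?_ ?_ b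
  · intro b hm hi xi
    rw [col_of_monotone hm]
    refine sum_congr rfl fun j _ => ?_
    rw [pos_of_strictMono (hm.strictMono_of_injective hi)]
  · intro b i hi ih hinj xi
    have h1 : col b xi = (col (b ∘ Equiv.swap i.castSucc i.succ) (sB i xi)) ∘
        Equiv.swap i.castSucc i.succ := funext fun j => col_swap i hi xi j
    have h2 : alt ((b ∘ Equiv.swap i.castSucc i.succ) ∘ Equiv.swap i.castSucc i.succ)
        ((col (b ∘ Equiv.swap i.castSucc i.succ) (sB i xi)) ∘ Equiv.swap i.castSucc i.succ) =
        alt (b ∘ Equiv.swap i.castSucc i.succ)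
          (col (b ∘ Equiv.swap i.castSucc i.succ) (sB i xi)) := alt_comp _ _ _
    have h3 : (b ∘ Equiv.swap i.castSucc i.succ) ∘ Equiv.swap i.castSucc i.succ = b := by
      funext j
      simp
    rw [h3] at h2
    rw [h1, h2, ih (hinj.comp (Equiv.injective _)), sum_sB]

/-- the colours determine the numbers and may be prescribed -/
theorem col_bijective (b : Fin (m + 1) → ℂ) :
    Function.Bijective (col (M := M) b) := by
  refine adj_induction (P := fun b => Function.Bijective (col (M := M) b)) ?_ ?_ b
  · intro b hm
    have : col (M := M) b = id := funext fun xi => col_of_monotone hm xi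
    rw [this]
    exact Function.bijective_id
  · intro b i hi ih
    have h1 : col (M := M) b = (fun t : Fin (m + 1) → M => t ∘ Equiv.swap i.castSucc i.succ) ∘
        (col (b ∘ Equiv.swap i.castSucc i.succ)) ∘ (sB i) :=
      funext fun xi => funext fun j => col_swap i hi xi j
    rw [h1]
    refine Function.Bijective.comp ?_ (ih.comp ?_)
    · refine Function.bijective_iff_has_inverse.mpr
        ⟨fun t => t ∘ Equiv.swap i.castSucc i.succ, fun t => ?_, fun t => ?_⟩ <;>
      · funext j
        simp
    · exact Function.bijective_iff_has_inverse.mpr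
        ⟨sBinv i, fun t => sBinv_sB i t, fun t => sB_sBinv i t⟩

end pos

section braid
variable {m : ℕ}

/-- value of the class on the arc between two neighbouring roots -/
def dif (i : Fin m) (xi : Fin (m + 1) → M) : M := xi i.succ - xi i.castSucc

theorem dif_sB_self (i : Fin m) (xi : Fin (m + 1) → M) : dif i (sB i xi) = dif i xi := by
  simp only [dif, sB_sc, sB_cs]
  abel

/-- the left neighbour -/
theorem dif_sB_left {i j : Fin m} (h : (j : ℕ) + 1 = i) (xi : Fin (m + 1) → M) :
    dif j (sB i xi) = dif j xi - dif i xi := by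
  have e1 : j.succ = i.castSucc := Fin.ext (by simpa using h)
  have e2 : j.castSucc ≠ i.castSucc := fun h' => by
    have := congrArg Fin.val h'
    simp at this
    omega
  have e3 : j.castSucc ≠ i.succ := fun h' => by
    have := congrArg Fin.val h'
    simp at this
    omega
  simp only [dif]
  rw [e1, sB_cs, sB_of_ne e2 e3]
  abel

/-- the right neighbour -/
theorem dif_sB_right {i j : Fin m} (h : (i : ℕ) + 1 = j) (xi : Fin (m + 1) → M) :
    dif j (sB i xi) = dif j xi + dif i xi := by
  have e1 : j.castSucc = i.succ := Fin.ext (by simpa using h.symm)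
  have e2 : j.succ ≠ i.castSucc := fun h' => by
    have := congrArg Fin.val h'
    simp at this
    omega
  have e3 : j.succ ≠ i.succ := fun h' => by
    have := congrArg Fin.val h'
    simp at this
    omega
  simp only [dif]
  rw [e1, sB_sc, sB_of_ne e2 e3]
  abel

/-- the others -/
theorem dif_sB_far {i j : Fin m} (h1 : j ≠ i) (h2 : (j : ℕ) + 1 ≠ i) (h3 : (i : ℕ) + 1 ≠ j)
    (xi : Fin (m + 1) → M) : dif j (sB i xi) = dif j xi := by
  have h1' : (j : ℕ) ≠ i := fun h => h1 (Fin.ext h)
  have e : ∀ k : Fin (m + 1), (k : ℕ) ≠ i → (k : ℕ) ≠ i + 1 → sB i xi k = xi k := fun k a a' =>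
    sB_of_ne (fun h => a (by rw [h]; simp)) (fun h => a' (by rw [h]; simp)) xi
  simp only [dif]
  rw [e j.succ (by simpa using h2) (by simpa using h1'), e j.castSucc (by simpa using h1')
    (by simpa using h3.symm)]

theorem sB_comm {i j : Fin m} (h : (i : ℕ) + 1 < j) (xi : Fin (m + 1) → M) :
    sB i (sB j xi) = sB j (sB i xi) := by
  have e1 : i.castSucc ≠ j.castSucc := fun h' => by
    have := congrArg Fin.val h'
    simp at this
    omega
  have e2 : i.castSucc ≠ j.succ := fun h' => by
    have := congrArg Fin.val h'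
    simp at this
    omega
  have e3 : i.succ ≠ j.castSucc := fun h' => by
    have := congrArg Fin.val h'
    simp at this
    omega
  have e4 : i.succ ≠ j.succ := fun h' => by
    have := congrArg Fin.val h'
    simp at this
    omega
  funext k
  simp only [sB]
  split_ifs <;> simp_all

theorem sB_braid {i j : Fin m} (h : (i : ℕ) + 1 = j) (xi : Fin (m + 1) → M) :
    sB i (sB j (sB i xi)) = sB j (sB i (sB j xi)) := by
  have e1 : j.castSucc = i.succ := Fin.ext (by simpa using h.symm)
  have e2 : i.castSucc ≠ j.succ := fun h' => by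
    have := congrArg Fin.val h'
    simp at this
    omega
  have e3 : i.succ ≠ j.succ := fun h' => by
    have := congrArg Fin.val h'
    simp at this
    omega
  have e4 := castSucc_ne_succ i
  funext k
  simp only [sB, e1]
  split_ifs <;> simp_all
  all_goals abel

end braid

end Vale.Agent.P273.H356
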