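import Vale.Agent.P273.H356.Move

/-!
# P273, colours near a wall

`col_near` : the colours of a configuration near `b0` are obtained from the colours of `b0` by
reflections inside the verticals of `b0`.  `colInv` : the numbers with prescribed colours.
-/

set_option autoImplicit false

open Finset

noncomputable section

namespace Vale.Agent.P273.H356

variable {M : Type*} [AddCommGroup M]

/-- one reflection inside a vertical of `b0` -/
def stpc {n : ℕ} (b0 b : Fin n → ℂ) (eta : Fin n → M) (j : Fin n) (v : M) (i : Fin n) : M :=
  if i < j ∧ (b0 i).re = (b0 j).re ∧ (b j).re < (b i).re then eta i + eta i - v else v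

/-- the reflections inside the verticals of `b0` -/
def colc {n : ℕ} (b0 b : Fin n → ℂ) (eta : Fin n → M) (j : Fin n) : M :=
  (List.finRange n).reverse.foldl (stpc b0 b eta j) (eta j)

theorem foldl_stpc_refl {n : ℕ} (b0 b : Fin n → ℂ) (eta zeta : Fin n → M) (j : Fin n) (c : M)
    (l : List (Fin n)) (h : ∀ a ∈ l, a < j → (b0 a).re = (b0 j).re → zeta a = c + c - eta a)
    (v : M) : l.foldl (stpc b0 b zeta j) (c + c - v) = c + c - l.foldl (stpc b0 b eta j) v := by
  induction l generalizing v with
  | nil => rfl
  | cons a l ih =>
    simp only [List.foldl_cons]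
    rw [← ih fun a' ha' => h a' (List.mem_cons_of_mem a ha')]
    congr 1
    simp only [stpc]
    split_ifs with hc
    · rw [h a List.mem_cons_self hc.1 hc.2.1]
      abel
    · rfl

theorem near_aux {n : ℕ} {b0 b : Fin n → ℂ}
    (h : ∀ i j, (b0 i).re < (b0 j).re → (b i).re < (b j).re) (xi : Fin n → M) (j : Fin n)
    (l : List (Fin n)) (hl : l.Pairwise (· > ·)) (v : M) :
    l.foldl (stp b xi j) v = l.foldl
      (stpc b0 b (fun i => l.foldl (stp b0 xi i) (xi i)) j) (l.foldl (stp b0 xi j) v) := by
  induction l using List.reverseRecOn with
  | nil => rfl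
  | append_singleton l k ih =>
    rw [List.pairwise_append] at hl
    have hk : ∀ a ∈ l, k < a := fun a ha => hl.2.2 a ha k (List.mem_singleton.mpr rfl)
    specialize ih hl.1
    simp only [List.foldl_append, List.foldl_cons, List.foldl_nil]
    rw [ih]
    by_cases hkj : k < j
    · rcases lt_trichotomy (b0 k).re (b0 j).re with hre | hre | hre
      · -- `k` on the left of the vertical
        have e1 : ∀ v : M, stp b xi j v k = v := fun v => if_neg fun h' =>
          absurd h'.2 (not_lt.mpr (h k j hre).le)
        have e2 : ∀ v : M, stp b0 xi j v k = v := fun v => if_neg fun h' =>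
          absurd h'.2 (not_lt.mpr hre.le)
        have e3 : ∀ (E : Fin n → M) (v : M), stpc b0 b E j v k = v := fun E v => if_neg fun h' =>
          absurd h'.2.1 hre.ne
        rw [e1, e2, e3]
        refine foldl_congr' (fun v a ha => ?_) _
        simp only [stpc]
        split_ifs with hc
        · have e4 : ∀ v : M, stp b0 xi a v k = v := fun v => if_neg fun h' => by
            rw [hc.2.1] at h'
            exact absurd h'.2 (not_lt.mpr hre.le)
          rw [e4]
        · rfl
      · -- `k` in the vertical
        have e2 : ∀ v : M, stp b0 xi j v k = v := fun v => if_neg fun h' =>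
          absurd h'.2 (not_lt.mpr hre.le)
        rw [e2]
        have e5 : l.foldl (stpc b0 b (fun i => l.foldl (stp b0 xi i) (xi i)) j)
            (l.foldl (stp b0 xi j) v) = l.foldl (stpc b0 b (fun i =>
              stp b0 xi i (l.foldl (stp b0 xi i) (xi i)) k) j) (l.foldl (stp b0 xi j) v) := by
          refine foldl_congr' (fun v a ha => ?_) _
          simp only [stpc]
          split_ifs with hc
          · have e4 : ∀ v : M, stp b0 xi a v k = v := fun v => if_neg fun h' => by
              rw [hc.2.1] at h'
              exact absurd h'.2 (not_lt.mpr hre.le)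
            rw [e4]
          · rfl
        rw [e5]
        have e6 : stp b0 xi k (l.foldl (stp b0 xi k) (xi k)) k = xi k := by
          rw [stp, if_neg fun h' => absurd h'.1 (lt_irrefl _)]
          exact foldl_id' (fun v a ha => if_neg fun h' => absurd h'.1
            (not_lt.mpr (hk a ha).le)) _
        have e7 : ∀ (E : Fin n → M) (X : M), E k = xi k →
            stpc b0 b E j X k = stp b xi j X k := by
          intro E X hE
          simp only [stpc, stp, hkj, hre, true_and, hE]
        exact (e7 (fun i => stp b0 xi i (l.foldl (stp b0 xi i) (xi i)) k) _ e6).symm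
      · -- `k` on the right of the vertical
        have e1 : ∀ v : M, stp b xi j v k = xi k + xi k - v := fun v => if_pos
          ⟨hkj, h j k hre⟩
        have e2 : ∀ v : M, stp b0 xi j v k = xi k + xi k - v := fun v => if_pos ⟨hkj, hre⟩
        have e3 : ∀ (E : Fin n → M) (v : M), stpc b0 b E j v k = v := fun E v => if_neg fun h' =>
          absurd h'.2.1 hre.ne'
        rw [e1, e2, e3]
        refine (foldl_stpc_refl b0 b _ _ j (xi k) l (fun a ha haj hre' => ?_) _).symm
        exact if_pos ⟨hk a ha, by rw [hre']; exact hre⟩
    · -- larger labels play no role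
      have e1 : ∀ v : M, stp b xi j v k = v := fun v => if_neg fun h' => hkj h'.1
      have e2 : ∀ v : M, stp b0 xi j v k = v := fun v => if_neg fun h' => hkj h'.1
      have e3 : ∀ (E : Fin n → M) (v : M), stpc b0 b E j v k = v := fun E v => if_neg fun h' =>
        hkj h'.1
      rw [e1, e2, e3]
      refine foldl_congr' (fun v a ha => ?_) _
      have ha' : ¬ a < j := fun h' => hkj ((hk a ha).trans h')
      simp only [stpc, ha', false_and, if_false]

/-- **colours near `b0`** -/
theorem col_near {n : ℕ} {b0 b : Fin n → ℂ}
    (h : ∀ i j, (b0 i).re < (b0 j).re → (b i).re < (b j).re) (xi : Fin n → M) (j : Fin n) :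
    col b xi j = colc b0 b (col b0 xi) j := by
  refine near_aux h xi j _ ?_ _
  rw [List.pairwise_reverse]
  exact (List.pairwise_lt_finRange n).imp fun h => h

/-- the chamber does not change: the colours do not change -/
theorem col_congr {n : ℕ} {b0 b : Fin n → ℂ}
    (h : ∀ i j, i < j → ((b0 j).re < (b0 i).re ↔ (b j).re < (b i).re)) (xi : Fin n → M) :
    col b0 xi = col b xi := by
  funext j
  refine foldl_congr' (fun v i _ => ?_) _
  simp only [stp]
  by_cases hij : i < j
  · simp only [hij, true_and, h i j hij]
  · simp only [hij, false_and, if_false]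

section inv
variable {m : ℕ}

/-- the numbers with prescribed colours -/
def colInv (b : Fin (m + 1) → ℂ) (t : Fin (m + 1) → M) : Fin (m + 1) → M :=
  Function.surjInv (col_bijective (M := M) b).surjective t

@[simp] theorem col_colInv (b : Fin (m + 1) → ℂ) (t : Fin (m + 1) → M) :
    col b (colInv b t) = t := Function.surjInv_eq _ _

@[simp] theorem colInv_col (b : Fin (m + 1) → ℂ) (xi : Fin (m + 1) → M) :
    colInv b (col b xi) = xi :=
  (col_bijective (M := M) b).injective (col_colInv b _)

theorem colInv_eq_iff {b : Fin (m + 1) → ℂ} {t xi : Fin (m + 1) → M} :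
    colInv b t = xi ↔ t = col b xi := by
  constructor
  · rintro rfl
    rw [col_colInv]
  · rintro rfl
    rw [colInv_col]

/-- **the numbers near `b0`**: if the values `t` at `b` are obtained from the values `u` by
reflections inside the verticals of `b0`, the numbers are those of `u` in the frame of `b0` -/
theorem colInv_near {b0 b : Fin (m + 1) → ℂ}
    (h : ∀ i j, (b0 i).re < (b0 j).re → (b i).re < (b j).re) {t u : Fin (m + 1) → M}
    (ht : ∀ j, t j = colc b0 b u j) : colInv b t = colInv b0 u := by
  rw [colInv_eq_iff]
  funext j
  rw [ht, col_near h, col_colInv]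

/-- equivariance of the numbers -/
theorem colInv_swap (i : Fin m) {b : Fin (m + 1) → ℂ} (h : (b i.succ).re < (b i.castSucc).re)
    (t : Fin (m + 1) → M) :
    colInv (b ∘ Equiv.swap i.castSucc i.succ) (t ∘ Equiv.swap i.castSucc i.succ) =
      sB i (colInv b t) := by
  rw [colInv_eq_iff]
  funext j
  have := col_swap i h (colInv b t) (Equiv.swap i.castSucc i.succ j)
  rw [col_colInv, Equiv.swap_apply_self] at this
  exact this

end inv

/-- reflections are undone by the same reflections in the opposite order -/
theorem foldl_stp_reverse {n : ℕ} (b : Fin n → ℂ) (xi : Fin n → M) (j : Fin n)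
    (l : List (Fin n)) (v : M) : l.foldl (stp b xi j) (l.reverse.foldl (stp b xi j) v) = v := by
  induction l generalizing v with
  | nil => rfl
  | cons a l ih =>
    rw [List.reverse_cons, List.foldl_append, List.foldl_cons, List.foldl_cons, List.foldl_nil]
    have : ∀ w : M, stp b xi j (stp b xi j w a) a = w := by
      intro w
      simp only [stp]
      split_ifs
      · abel
      · rfl
    rw [this, ih]

/-- the number `xi j` from the colour of `j` and the numbers before -/
theorem eq_of_col {n : ℕ} (b : Fin n → ℂ) (xi : Fin n → M) (j : Fin n) :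
    xi j = (List.finRange n).foldl (stp b xi j) (col b xi j) :=
  (foldl_stp_reverse b xi j _ _).symm

/-- **transfer of a property from the colours to the numbers** (smoothness, continuity, bounds):
`P` is a property of functions stable under `u, v ↦ u + u - v` -/
theorem prop_of_col {n : ℕ} {X : Type*} (b : Fin n → ℂ) (P : (X → M) → Prop)
    (hP : ∀ u v : X → M, P u → P v → P (fun x => u x + u x - v x)) (f : X → Fin n → M)
    (h : ∀ j, P (fun x => col b (f x) j)) (j : Fin n) : P (fun x => f x j) := by
  induction hj : (j : ℕ) using Nat.strong_induction_on generalizing j with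
  | _ k ih =>
    have h1 : (fun x => f x j) =
        fun x => (List.finRange n).foldl (stp b (f x) j) (col b (f x) j) :=
      funext fun x => eq_of_col b (f x) j
    rw [h1]
    have h2 : ∀ (l : List (Fin n)) (g : X → M), P g →
        P (fun x => l.foldl (stp b (f x) j) (g x)) := by
      intro l
      induction l with
      | nil => exact fun g hg => hg
      | cons a l ihl =>
        intro g hg
        simp only [List.foldl_cons]
        refine ihl (fun x => stp b (f x) j (g x) a) ?_
        simp only [stp]
        by_cases hc : a < j ∧ (b j).re < (b a).re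
        · simp only [if_pos hc]
          exact hP _ _ (ih a (hj ▸ Fin.lt_def.mp hc.1) a rfl) hg
        · simp only [if_neg hc]
          exact hg
    exact h2 _ _ (h j)

/-- **transfer of a property from the numbers to the colours** -/
theorem prop_col {n : ℕ} {X : Type*} (b : Fin n → ℂ) (P : (X → M) → Prop)
    (hP : ∀ u v : X → M, P u → P v → P (fun x => u x + u x - v x)) (f : X → Fin n → M)
    (h : ∀ j, P (fun x => f x j)) (j : Fin n) : P (fun x => col b (f x) j) := by
  have h2 : ∀ (l : List (Fin n)) (g : X → M), P g →
      P (fun x => l.foldl (stp b (f x) j) (g x)) := by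
    intro l
    induction l with
    | nil => exact fun g hg => hg
    | cons a l ihl =>
      intro g hg
      simp only [List.foldl_cons]
      refine ihl (fun x => stp b (f x) j (g x) a) ?_
      simp only [stp]
      by_cases hc : a < j ∧ (b j).re < (b a).re
      · simp only [if_pos hc]
        exact hP _ _ (h a) hg
      · simp only [if_neg hc]
        exact hg
  exact h2 _ _ (h j)

end Vale.Agent.P273.H356
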