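import Vale.Agent.P273.H356.Dict

/-!
# P273, the linear system of the flat gauge over `XX`

Input: half periods `pX` in the frame of `XX`.  Output: for every colour vector `clr z` the
coefficients `aX b z` of the differential and the constant `cX b z`; smoothness in `b`, linearity
in `z`, equivariance under the half twists.
-/

set_option autoImplicit false

open Finset

noncomputable section

namespace Vale.Agent.P273.H356

open Vale.Agent.P273.H681 (C6 sw swL)

/-- `XX` is open -/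
theorem isOpen_XX {n : ℕ} : IsOpen (XX n) := by
  have h : XX n = ⋂ i : Fin n, ⋂ j : Fin n, {b | i < j →
      b j - b i ∈ {z : ℂ | z.re = 0 ∧ 0 ≤ z.im}ᶜ} := by
    ext b
    simp only [XX, Set.mem_ofPred_eq, Set.mem_iInter, Set.mem_compl_iff, not_and, not_le,
      Complex.sub_re, Complex.sub_im]
    refine forall_congr' fun i => forall_congr' fun j => forall_congr' fun _ => ?_
    rw [sub_eq_zero, sub_neg, eq_comm]
  rw [h]
  refine isOpen_iInter_of_finite fun i => isOpen_iInter_of_finite fun j => ?_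
  by_cases hij : i < j
  · simp only [hij, true_implies]
    refine IsOpen.preimage ((continuous_apply j).sub (continuous_apply i)) ?_
    rw [isOpen_compl_iff]
    exact (isClosed_eq Complex.continuous_re continuous_const).inter
      (isClosed_le continuous_const Complex.continuous_im)
  · simp only [hij, false_implies, Set.ofPred_true]
    exact isOpen_univ

/-- the linear combination `Re (a₀ p₀ + a₁ p₁)` -/
def rr (a p : Fin 2 → ℂ) : ℝ := (∑ k, a k * p k).re

theorem rr_eq (a p : Fin 2 → ℂ) : rr a p = (a 0 * p 0).re + (a 1 * p 1).re := by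
  simp [rr, Fin.sum_univ_two]

/-- `rr` as an additive map of the periods -/
def rrP (a : Fin 2 → ℂ) : (Fin 2 → ℂ) →+ ℝ where
  toFun := rr a
  map_zero' := by simp [rr]
  map_add' p q := by simp only [rr_eq, Pi.add_apply, mul_add, Complex.add_re]; ring

/-- half periods in the frame of `XX` -/
structure HP (pX : C6 → Fin 6 → Fin 2 → ℂ) : Prop where
  smooth : ContDiffOn ℝ (↑(⊤ : ℕ∞)) pX (XX 6)
  asum : ∀ b ∈ XX 6, asum (pX b) = 0
  inj : ∀ b ∈ XX 6, ∀ (a : Fin 2 → ℂ) (c : ℝ), (∀ j, rr a (pX b j) + c = 0) → a = 0 ∧ c = 0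
  equi : ∀ k : Fin 5, ∀ b ∈ XX 6, (b k.succ).re < (b k.castSucc).re →
    pX (swL k b) = sB k (pX b)

/-- the values at the roots, as a linear map -/
def LX (pX : C6 → Fin 6 → Fin 2 → ℂ) (b : C6) : (Fin 2 → ℂ) × ℝ →ₗ[ℝ] (Fin 6 → ℝ) where
  toFun q := fun j => rr q.1 (pX b j) + q.2
  map_add' q q' := by
    funext j
    simp only [rr_eq, Prod.fst_add, Prod.snd_add, Pi.add_apply, add_mul, Complex.add_re]
    ring
  map_smul' r q := by
    funext j
    simp only [rr_eq, Prod.smul_fst, Prod.smul_snd, Pi.smul_apply, smul_eq_mul, RingHom.id_apply,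
      Complex.real_smul, mul_assoc, Complex.re_ofReal_mul]
    ring

theorem LX_apply (pX : C6 → Fin 6 → Fin 2 → ℂ) (b : C6) (a : Fin 2 → ℂ) (c : ℝ) (j : Fin 6) :
    LX pX b (a, c) j = rr a (pX b j) + c := rfl

/-- coordinates and constant part -/
def TT0 : (Fin 6 → ℝ) →ₗ[ℝ] (Fin 4 → ℝ) × ℝ where
  toFun xi := (crd xi, cst xi)
  map_add' xi xi' := by
    refine Prod.ext ?_ ?_
    · exact crd_add xi xi'
    · simp only [cst, Pi.add_apply, Prod.snd_add]
      ring
  map_smul' r xi := by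
    refine Prod.ext ?_ ?_
    · funext a
      fin_cases a <;> simp [crd] <;> ring
    · simp only [cst, Pi.smul_apply, smul_eq_mul, RingHom.id_apply, Prod.smul_snd]
      ring

/-- the operator of the linear system -/
def TX (pX : C6 → Fin 6 → Fin 2 → ℂ) (b : C6) :
    ((Fin 2 → ℂ) × ℝ) →L[ℝ] ((Fin 4 → ℝ) × ℝ) :=
  (TT0.comp (LX pX b)).toContinuousLinearMap

theorem TX_apply (pX : C6 → Fin 6 → Fin 2 → ℂ) (b : C6) (q : (Fin 2 → ℂ) × ℝ) :
    TX pX b q = (crd (LX pX b q), cst (LX pX b q)) := rfl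

variable {pX : C6 → Fin 6 → Fin 2 → ℂ}

theorem asum_LX (h : HP pX) {b : C6} (hb : b ∈ XX 6) (q : (Fin 2 → ℂ) × ℝ) :
    Vale.Agent.P273.H356.asum (LX pX b q) = 0 := by
  obtain ⟨a, c⟩ := q
  have h1 := congrArg (rrP a) (h.asum b hb)
  rw [asum_eq, map_zero, map_sub, map_add, map_sub, map_add, map_sub] at h1
  simp only [rrP, AddMonoidHom.coe_mk, ZeroHom.coe_mk] at h1
  rw [asum_eq]
  simp only [LX_apply]
  linarith

theorem TX_injective (h : HP pX) {b : C6} (hb : b ∈ XX 6) :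
    Function.Injective (TX pX b) := by
  rw [injective_iff_map_eq_zero]
  intro q hq
  rw [TX_apply, Prod.mk_eq_zero] at hq
  have h1 : ∀ j, LX pX b q j = 0 := by
    intro j
    rw [eq_clr (asum_LX h hb q) j, hq.1, hq.2, add_zero]
    fin_cases j <;> simp [clr]
  obtain ⟨a, c⟩ := q
  have h2 := h.inj b hb a c h1
  rw [h2.1, h2.2]
  rfl

theorem finrank_eq : Module.finrank ℝ ((Fin 2 → ℂ) × ℝ) = Module.finrank ℝ ((Fin 4 → ℝ) × ℝ) := by
  simp [Module.finrank_prod, Complex.finrank_real_complex, Module.finrank_pi_fintype]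

/-- the system as an equivalence -/
def EX (h : HP pX) {b : C6} (hb : b ∈ XX 6) :
    ((Fin 2 → ℂ) × ℝ) ≃L[ℝ] ((Fin 4 → ℝ) × ℝ) :=
  (LinearEquiv.ofInjectiveOfFinrankEq (TX pX b : ((Fin 2 → ℂ) × ℝ) →ₗ[ℝ] ((Fin 4 → ℝ) × ℝ))
    (TX_injective h hb) finrank_eq).toContinuousLinearEquiv

theorem EX_coe (h : HP pX) {b : C6} (hb : b ∈ XX 6) :
    (EX h hb : ((Fin 2 → ℂ) × ℝ) →L[ℝ] ((Fin 4 → ℝ) × ℝ)) = TX pX b := by
  refine ContinuousLinearMap.ext fun q => ?_
  rfl

/-- coefficients and constant of the gauge with colours `clr z` -/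
def SX (pX : C6 → Fin 6 → Fin 2 → ℂ) (b : C6) : (Fin 4 → ℝ) →L[ℝ] (Fin 2 → ℂ) × ℝ :=
  (TX pX b).inverse.comp (ContinuousLinearMap.inl ℝ (Fin 4 → ℝ) ℝ)

/-- coefficients of the differential of the gauge with colours `clr z` -/
def aX (pX : C6 → Fin 6 → Fin 2 → ℂ) (b : C6) : (Fin 4 → ℝ) →L[ℝ] (Fin 2 → ℂ) :=
  (ContinuousLinearMap.fst ℝ (Fin 2 → ℂ) ℝ).comp (SX pX b)

/-- the constant of the gauge with colours `clr z` -/
def cX (pX : C6 → Fin 6 → Fin 2 → ℂ) (b : C6) : (Fin 4 → ℝ) →L[ℝ] ℝ :=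
  (ContinuousLinearMap.snd ℝ (Fin 2 → ℂ) ℝ).comp (SX pX b)

theorem TX_SX (h : HP pX) {b : C6} (hb : b ∈ XX 6) (z : Fin 4 → ℝ) :
    TX pX b (SX pX b z) = (z, 0) := by
  rw [SX, ← EX_coe h hb, ContinuousLinearMap.inverse_equiv]
  simp

theorem LX_SX (h : HP pX) {b : C6} (hb : b ∈ XX 6) (z : Fin 4 → ℝ) (j : Fin 6) :
    LX pX b (SX pX b z) j = clr z j := by
  have h1 := TX_SX h hb z
  rw [TX_apply, Prod.mk.injEq] at h1
  rw [eq_clr (asum_LX h hb _) j, h1.1, h1.2, add_zero]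

/-- **the linear system** -/
theorem gauge_eq (h : HP pX) {b : C6} (hb : b ∈ XX 6) (z : Fin 4 → ℝ) (j : Fin 6) :
    rr (aX pX b z) (pX b j) + cX pX b z = clr z j := LX_SX h hb z j

/-- **uniqueness** -/
theorem gauge_unique (h : HP pX) {b : C6} (hb : b ∈ XX 6) {z : Fin 4 → ℝ} {a : Fin 2 → ℂ} {c : ℝ}
    (h1 : ∀ j, rr a (pX b j) + c = clr z j) : a = aX pX b z ∧ c = cX pX b z := by
  have h2 : TX pX b (a, c) = (z, 0) := by
    have h3 : LX pX b (a, c) = clr z := funext h1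
    rw [TX_apply, h3, crd_clr, cst_clr]
  have h4 : (a, c) = SX pX b z := TX_injective h hb (h2.trans (TX_SX h hb z).symm)
  exact ⟨congrArg Prod.fst h4, congrArg Prod.snd h4⟩

/-- **smoothness** -/
theorem contDiffOn_TX (h : HP pX) : ContDiffOn ℝ (↑(⊤ : ℕ∞)) (TX pX) (XX 6) := by
  rw [contDiffOn_clm_apply]
  rintro ⟨a, c⟩
  have h1 : ∀ j, ContDiffOn ℝ (↑(⊤ : ℕ∞)) (fun b => LX pX b (a, c) j) (XX 6) := by
    intro j
    simp only [LX_apply, rr_eq]
    have h2 : ∀ k, ContDiffOn ℝ (↑(⊤ : ℕ∞)) (fun b => (a k * pX b j k).re) (XX 6) := by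
      intro k
      have h3 : ContDiffOn ℝ (↑(⊤ : ℕ∞)) (fun b => pX b j k) (XX 6) :=
        (contDiffOn_pi.mp ((contDiffOn_pi.mp h.smooth) j)) k
      exact Complex.reCLM.contDiff.comp_contDiffOn (contDiffOn_const.mul h3)
    exact ((h2 0).add (h2 1)).add contDiffOn_const
  have h4 : ContDiffOn ℝ (↑(⊤ : ℕ∞)) (fun b => LX pX b (a, c)) (XX 6) := contDiffOn_pi.mpr h1
  exact TT0.toContinuousLinearMap.contDiff.comp_contDiffOn h4

theorem contDiffOn_SX (h : HP pX) : ContDiffOn ℝ (↑(⊤ : ℕ∞)) (SX pX) (XX 6) := by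
  intro b hb
  have h1 : ContDiffAt ℝ (↑(⊤ : ℕ∞)) (fun b => (TX pX b).inverse) b := by
    have h2 : ContDiffAt ℝ (↑(⊤ : ℕ∞)) (ContinuousLinearMap.inverse (R := ℝ)
        (M := (Fin 2 → ℂ) × ℝ) (M₂ := (Fin 4 → ℝ) × ℝ)) (TX pX b) := by
      rw [← EX_coe h hb]
      exact contDiffAt_map_inverse (EX h hb)
    exact h2.comp b ((contDiffOn_TX h).contDiffAt (isOpen_XX.mem_nhds hb))
  exact (h1.clm_comp contDiffAt_const).contDiffWithinAt

theorem contDiffOn_aX (h : HP pX) : ContDiffOn ℝ (↑(⊤ : ℕ∞)) (aX pX) (XX 6) :=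
  contDiffOn_const.clm_comp (contDiffOn_SX h)

theorem contDiffOn_cX (h : HP pX) : ContDiffOn ℝ (↑(⊤ : ℕ∞)) (cX pX) (XX 6) :=
  contDiffOn_const.clm_comp (contDiffOn_SX h)

/-- the values at the roots move with the half twists -/
theorem LX_sw (h : HP pX) (k : Fin 5) {b : C6} (hb : b ∈ XX 6)
    (hk : (b k.succ).re < (b k.castSucc).re) (a : Fin 2 → ℂ) (c : ℝ) (j : Fin 6) :
    LX pX (swL k b) (a, c) j = sB k (LX pX b (a, c)) j := by
  rw [LX_apply, h.equi k b hb hk]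
  have h1 : rr a (sB k (pX b) j) = sB k (fun i => rr a (pX b i)) j := sB_map (rrP a) k (pX b) j
  have h2 : LX pX b (a, c) = fun i => rr a (pX b i) + c := rfl
  rw [h1, h2, sB_add k (fun i => rr a (pX b i)) (fun _ => c), sB_const]

/-- **equivariance of the gauge** -/
theorem gauge_sw (h : HP pX) (k : Fin 5) {b : C6} (hb : b ∈ XX 6)
    (hk : (b k.succ).re < (b k.castSucc).re) (z : Fin 4 → ℝ) :
    aX pX b z = aX pX (swL k b) (sT k z) ∧
      cX pX b z = cX pX (swL k b) (sT k z) + cT k z := by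
  have hb' : swL k b ∈ XX 6 := swL_mem k hb hk
  have h1 : ∀ j, rr (aX pX b z) (pX (swL k b) j) + (cX pX b z - cT k z) = clr (sT k z) j := by
    intro j
    have h2 := LX_sw h k hb hk (aX pX b z) (cX pX b z) j
    have h3 : LX pX b (aX pX b z, cX pX b z) = clr z := funext fun i => gauge_eq h hb z i
    rw [h3, sB_clr, LX_apply] at h2
    linarith
  have h4 := gauge_unique h hb' h1
  exact ⟨h4.1, by rw [← h4.2]; ring⟩

end Vale.Agent.P273.H356
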