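import Vale.Agent.P273.H356.Dict
import Vale.Agent.P273.H95.Wall

/-!
# P273, the law of the half twists for the vector valued gauge
-/

set_option autoImplicit false

open Finset

noncomputable section

namespace Vale.Agent.P273.H356

open Vale.Agent.P273.H681 (C6 sw swL)

/-- the action of the wall is the half twist -/
theorem act_eq (i : Fin 5) (xi : Fin 6 → ℝ) : Vale.Agent.P273.H95.act i xi = sB i xi := by
  funext j
  simp only [Vale.Agent.P273.H95.act, sB, two_mul]

/-- classes are colours with alternating sum zero -/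
theorem isCl_iff (xi : Fin 6 → ℝ) : Vale.Agent.P273.H95.IsCl xi ↔ asum xi = 0 := by
  simp only [Vale.Agent.P273.H95.IsCl, asum, zsmul_eq_mul, Int.cast_pow, Int.cast_neg,
    Int.cast_one]

theorem isCl_sB (k : Fin 5) {xi : Fin 6 → ℝ} (h : Vale.Agent.P273.H95.IsCl xi) :
    Vale.Agent.P273.H95.IsCl (sB k xi) := by
  rw [isCl_iff] at h ⊢
  rw [asum_sB, h]

theorem isCl_act (k : Fin 5) {xi : Fin 6 → ℝ} (h : Vale.Agent.P273.H95.IsCl xi) :
    Vale.Agent.P273.H95.IsCl (Vale.Agent.P273.H95.act k xi) := by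
  rw [act_eq]
  exact isCl_sB k h

theorem isCl_clr (z : Fin 4 → ℝ) : Vale.Agent.P273.H95.IsCl (clr z) := by
  rw [isCl_iff, asum_clr]

/-- the four basis classes -/
theorem col4_eq (a : Fin 4) : Vale.Agent.P273.H95.col4 a = clr (Pi.single a 1) := by
  funext j
  fin_cases a <;> fin_cases j <;> simp [Vale.Agent.P273.H95.col4, clr]

theorem sH_apply' (k : Fin 5) (u : Fin 4 → ℝ) : Vale.Agent.P273.H95.sH k u =
    u + Vale.Agent.P273.H95.om (Vale.Agent.P273.H95.dk k) u • Vale.Agent.P273.H95.dk k := rfl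

/-- the matrices of the wall are the matrices `sH` -/
theorem sH_eq : ∀ (k : Fin 5) (u : Fin 4 → ℝ), Vale.Agent.P273.H95.sH k u = sH k u
  | 0, u => by
    funext a
    rw [sH_apply']
    fin_cases a <;> simp [sH, Vale.Agent.P273.H95.om, Vale.Agent.P273.H95.dk]
  | 1, u => by
    funext a
    rw [sH_apply']
    fin_cases a <;> simp [sH, Vale.Agent.P273.H95.om, Vale.Agent.P273.H95.dk] <;> ring
  | 2, u => by
    funext a
    rw [sH_apply']
    fin_cases a <;> simp [sH, Vale.Agent.P273.H95.om, Vale.Agent.P273.H95.dk]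
  | 3, u => by
    funext a
    rw [sH_apply']
    fin_cases a <;> simp [sH, Vale.Agent.P273.H95.om, Vale.Agent.P273.H95.dk] <;> ring
  | 4, u => by
    funext a
    rw [sH_apply']
    fin_cases a <;> simp [sH, Vale.Agent.P273.H95.om, Vale.Agent.P273.H95.dk]

/-- naturality of `sH` -/
theorem sH_map {M M' : Type*} [AddCommGroup M] [AddCommGroup M'] (L : M →+ M') :
    ∀ (k : Fin 5) (u : Fin 4 → M) (a : Fin 4), L (sH k u a) = sH k (fun b => L (u b)) a
  | 0, u, a => by fin_cases a <;> simp [sH]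
  | 1, u, a => by fin_cases a <;> simp [sH]
  | 2, u, a => by fin_cases a <;> simp [sH]
  | 3, u, a => by fin_cases a <;> simp [sH]
  | 4, u, a => by fin_cases a <;> simp [sH]

theorem clr_add' (z z' : Fin 4 → ℝ) : clr (z + z') = clr z + clr z' :=
  funext fun j => clr_add z z' j

theorem clr_smul' (c : ℝ) (z : Fin 4 → ℝ) : clr (c • z) = c • clr z := by
  funext j
  fin_cases j <;> simp [clr] <;> ring

open Vale.Agent.P273.H95

/-- the forms of the mark `j` as a linear function of the coordinates of the class -/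
def thA (Th : Gauge) (j : L) (S : L → Bool) (e : E) (v : L → ℂ) :
    (Fin 4 → ℝ) →ₗ[ℝ] (E →L[ℝ] ℝ) where
  toFun z := Th.θ j (clr z) S e v
  map_add' z z' := by rw [clr_add', Th.add _ _ _ _ _ _ (isCl_clr z) (isCl_clr z')]
  map_smul' c z := by rw [clr_smul', Th.smul _ _ _ _ _ _ (isCl_clr z), RingHom.id_apply]

theorem thA_apply (Th : Gauge) (j : L) (S : L → Bool) (e : E) (v : L → ℂ) (z : Fin 4 → ℝ) :
    thA Th j S e v z = Th.θ j (clr z) S e v := rfl

/-- constants play no role -/
theorem theta_add_const (Th : Gauge) (j : L) (S : L → Bool) (e : E) (v : L → ℂ)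
    {xi : Fin 6 → ℝ} (h : IsCl xi) (c : ℝ) :
    Th.θ j (fun i => xi i + c) S e v = Th.θ j xi S e v := by
  have h1 : IsCl (fun _ : Fin 6 => (1 : ℝ)) := by
    rw [isCl_iff, asum_eq]
    norm_num
  have h2 : IsCl (c • fun _ : Fin 6 => (1 : ℝ)) := by
    rw [isCl_iff, asum_eq]
    simp
  have h3 : (fun i => xi i + c) = xi + c • fun _ : Fin 6 => (1 : ℝ) := by
    funext i
    simp
  rw [h3, Th.add _ _ _ _ _ _ h h2, Th.smul _ _ _ _ _ _ h1, Th.const, smul_zero, add_zero]

/-- the law of the half twist in coordinates of classes -/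
theorem thA_law (Th : Gauge) (j : L) (S : L → Bool) (e : E) (v : L → ℂ) (k : Fin 5)
    (he : e.1 ∈ Vale.Agent.P273.H681.XX) (hk : (e.1 k.succ).re < (e.1 k.castSucc).re)
    (hv : OnC S (rts e.1) e.2 v) (z : Fin 4 → ℝ) :
    thA Th j S e v z = (thA Th j S (swL k e.1, e.2) v (sT k z)).comp
      ((swL k).prodMap (ContinuousLinearMap.id ℝ (L → ℂ))) := by
  rw [thA_apply, thA_apply, Th.law j (clr z) S e v k (isCl_clr z) he hk hv]
  have h1 : act k (clr z) = fun i => clr (sT k z) i + cT k z := by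
    rw [act_eq]
    exact funext fun i => sB_clr k z i
  rw [h1, theta_add_const Th j S _ v (isCl_clr _)]

/-- **the law of the half twist for the vector valued gauge** -/
theorem th_law (Th : Gauge) (i : Fin 14) (S : L → Bool) (e : E) (v : L → ℂ) (k : Fin 5)
    (he : e.1 ∈ Vale.Agent.P273.H681.XX) (hk : (e.1 k.succ).re < (e.1 k.castSucc).re)
    (hv : OnC S (rts e.1) e.2 v) :
    Th.th i S e v = (Vale.Agent.P273.H95.sH k).comp ((Th.th i S (swL k e.1, e.2) v).comp
      ((swL k).prodMap (ContinuousLinearMap.id ℝ (L → ℂ)))) := by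
  set P := (swL k).prodMap (ContinuousLinearMap.id ℝ (L → ℂ)) with hP
  let A' : (Fin 4 → ℝ) →ₗ[ℝ] (E →L[ℝ] ℝ) :=
    { toFun := fun z => (thA Th (mrk i) S (swL k e.1, e.2) v z).comp P
      map_add' := fun z z' => by rw [map_add, ContinuousLinearMap.add_comp]
      map_smul' := fun c z => by
        rw [map_smul, ContinuousLinearMap.smul_comp, RingHom.id_apply] }
  have h1 : uH (thA Th (mrk i) S e v) = sH k (uH A') :=
    uH_eq fun z => thA_law Th (mrk i) S e v k he hk hv z
  refine ContinuousLinearMap.ext fun w => ?_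
  rw [ContinuousLinearMap.comp_apply, ContinuousLinearMap.comp_apply, sH_eq]
  funext a
  have h2 : Th.th i S e v w a = uH (thA Th (mrk i) S e v) a w := by
    simp only [Gauge.th, ContinuousLinearMap.coe_pi', uH, thA_apply, col4_eq]
  have h3 : ∀ b, Th.th i S (swL k e.1, e.2) v (P w) b = uH A' b w := by
    intro b
    simp only [Gauge.th, ContinuousLinearMap.coe_pi', uH, A', LinearMap.coe_mk, AddHom.coe_mk,
      thA_apply, col4_eq, ContinuousLinearMap.comp_apply]
  rw [h2, h1, funext h3]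
  exact sH_map ((ContinuousLinearMap.apply ℝ ℝ w : (E →L[ℝ] ℝ) →L[ℝ] ℝ) :
    (E →L[ℝ] ℝ) →+ ℝ) k (uH A') a

end Vale.Agent.P273.H356
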